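import Vale.Agent.P272.F.P.Defs

/-! P272 F/P/Ext (task). Helper names start with `ext_`. Extension by zero.
Plan. `sm_ext`: at `y = e k x`; if `x ∈ source j`, near `y` the function is `g ∘ (e j ∘ (e k).symm)` (`Atl.tr_analytic`, `AnalyticAt.contDiffAt`, `restrict_scalars ℝ`); otherwise `x` is outside the compact, hence closed, set `(e j).symm '' K`, and the function vanishes near `y`. `exists_W`: `b : ContDiffBump (0 : E n) := ⟨2, 3, _, _⟩`, `χ = ext j b`, `W = ext j (fun y => b y • y)`, `K = closedBall 0 3` (`A.tgt`). `smF_pert`: `ContDiffOn.clm_apply`, compose with `contDiffOn_snd`. -/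

open Metric Set Filter Topology Complex
open scoped ContDiff

noncomputable section

namespace Vale.Agent.P272

variable {n : ℕ} {X : Type} [TopologicalSpace X] {A : Atl n X}

theorem ext_of_mem {B : Type} [Zero B] {j : Fin A.N} (g : E n → B) {x : X}
    (hx : x ∈ (A.e j).source) : A.ext j g x = g (A.e j x) := by
  unfold Atl.ext
  rw [indicator_of_mem hx]

theorem ext_of_notMem {B : Type} [Zero B] {j : Fin A.N} (g : E n → B) {x : X}
    (hx : x ∉ (A.e j).source) : A.ext j g x = 0 := by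
  unfold Atl.ext
  rw [indicator_of_notMem hx]

theorem sm_ext [T2Space X] {B : Type} [NormedAddCommGroup B] [NormedSpace ℝ B] {j : Fin A.N}
    {g : E n → B} {K : Set (E n)} (hK : IsCompact K) (hKt : K ⊆ (A.e j).target)
    (hg : ContDiffOn ℝ ∞ g (A.e j).target) (h0 : ∀ y ∈ (A.e j).target, y ∉ K → g y = 0)
    (k : Fin A.N) : ContDiffOn ℝ ∞ (fun y => A.ext j g ((A.e k).symm y)) (A.e k).target := by
  intro y hy
  refine ContDiffAt.contDiffWithinAt ?_
  have hc : ContinuousAt (A.e k).symm y := (A.e k).continuousAt_symm hy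
  have hxk : (A.e k).symm y ∈ (A.e k).source := (A.e k).map_target hy
  by_cases hx : (A.e k).symm y ∈ (A.e j).source
  · have h1 : AnalyticAt ℂ (A.e j ∘ (A.e k).symm) y := by
      have := Atl.tr_analytic hx hxk
      rwa [(A.e k).right_inv hy] at this
    have h2 : ContDiffAt ℝ ∞ (A.e j ∘ (A.e k).symm) y :=
      (h1.contDiffAt (n := ∞)).restrict_scalars ℝ
    have h3 : ContDiffAt ℝ ∞ g ((A.e j ∘ (A.e k).symm) y) :=
      hg.contDiffAt ((A.e j).open_target.mem_nhds ((A.e j).map_source hx))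
    refine (h3.comp y h2).congr_of_eventuallyEq ?_
    filter_upwards [hc.eventually ((A.e j).open_source.mem_nhds hx)] with z hz
    exact ext_of_mem g hz
  · have h1 : IsClosed ((A.e j).symm '' K) :=
      (hK.image_of_continuousOn ((A.e j).continuousOn_symm.mono hKt)).isClosed
    have h2 : (A.e k).symm y ∈ ((A.e j).symm '' K)ᶜ := by
      rintro ⟨w, hw, e⟩
      exact hx (e ▸ (A.e j).map_target (hKt hw))
    refine (contDiffAt_const (c := (0 : B))).congr_of_eventuallyEq ?_
    filter_upwards [hc.eventually (h1.isOpen_compl.mem_nhds h2)] with z hz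
    by_cases hz' : (A.e k).symm z ∈ (A.e j).source
    · rw [ext_of_mem g hz']
      exact h0 _ ((A.e j).map_source hz') fun hm => hz ⟨_, hm, (A.e j).left_inv hz'⟩
    · exact ext_of_notMem g hz'

theorem exists_W [T2Space X] (j : Fin A.N) : ∃ (χ : X → ℝ) (W : X → E n), A.Sm χ ∧
    (∀ k, ContDiffOn ℝ ∞ (fun y => W ((A.e k).symm y)) (A.e k).target) ∧
    ∀ x, x ∈ (A.e j).source → ‖A.e j x‖ < 2 → χ x = 1 ∧ W x = A.e j x := by
  let b : ContDiffBump (0 : E n) := ⟨2, 3, by norm_num, by norm_num⟩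
  have hK : IsCompact (closedBall (0 : E n) 3) := isCompact_closedBall _ _
  have hKt : closedBall (0 : E n) 3 ⊆ (A.e j).target :=
    (closedBall_subset_closedBall (by norm_num)).trans (A.tgt j)
  have hz : ∀ y : E n, y ∉ closedBall (0 : E n) 3 → b y = 0 := fun y hy =>
    b.zero_of_le_dist (le_of_lt (not_le.1 hy))
  have hb : ContDiff ℝ ∞ b := b.contDiff
  refine ⟨A.ext j b, A.ext j fun y => b y • y, fun k => ?_, fun k => ?_, fun x hx h2 => ?_⟩
  · exact sm_ext hK hKt hb.contDiffOn (fun y _ hy => hz y hy) k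
  · exact sm_ext (g := fun y => b y • y) hK hKt (hb.smul contDiff_id).contDiffOn
      (fun y _ hy => by rw [hz y hy, zero_smul]) k
  · have h1 : b (A.e j x) = 1 := b.one_of_mem_closedBall (mem_closedBall_zero_iff.2 h2.le)
    rw [ext_of_mem _ hx, ext_of_mem _ hx, h1, one_smul]
    exact ⟨rfl, rfl⟩

theorem smF_pert {p χ : X → ℝ} {W : X → E n} (hp : A.Sm p) (hχ : A.Sm χ)
    (hW : ∀ k, ContDiffOn ℝ ∞ (fun y => W ((A.e k).symm y)) (A.e k).target) :
    A.SmF fun (c : ℝ × (E n →L[ℝ] ℝ)) x => p x + (c.1 * χ x + c.2 (W x)) := by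
  intro j
  have m : MapsTo (Prod.snd : (ℝ × (E n →L[ℝ] ℝ)) × E n → E n) (univ ×ˢ (A.e j).target)
      (A.e j).target := fun q hq => hq.2
  have h1 := (hp j).comp contDiffOn_snd m
  have h2 := (hχ j).comp contDiffOn_snd m
  have h3 := (hW j).comp contDiffOn_snd m
  exact h1.add ((contDiffOn_fst.fst.mul h2).add (contDiffOn_fst.snd.clm_apply h3))

end Vale.Agent.P272
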