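import Vale.Agent.P272.F.P.Lv

/-! P272 F/P/BumpA (task). Helper names start with `bumpa_`. The local strict function in a chart.
Plan. Margin `4 η = F - trL`, `ε (hs V + 1) = η`. For `γ` small and `Q y = q y + (ε ‖y - y₀‖ ^ 2 + (r₀ - q y₀ - γ))`: `trL (u + Q) y V = trL (u + q) y V + ε hs V` (`pv_trL_add`, `pv_trL_sq`, `pv_trL_congr` for re-association), `pv_trL_cont`; `pv_lsc` at `(y₀, r₀)` gives `δ` (`Metric.eventually_nhds_iff`, `Prod.dist_eq`); choose `r` with `closedBall y₀ r` inside all the eventual sets, `|q y - q y₀| + ε r ^ 2 < δ`, `‖y₀‖ + r < 4`, and `γ = ε r ^ 2 / 8`. On `r / 2 ≤ ‖y - y₀‖`: `f y ≤ q y + f y₀ - q y₀ < Q y`. -/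

open Metric Set Filter Topology Complex
open scoped ContDiff

noncomputable section

namespace Vale.Agent.P272

variable {n : ℕ} {X : Type} [TopologicalSpace X] {A : Atl n X}

theorem bump_loc (F : A.Rhs) (j : Fin A.N) {u q f : E n → ℝ} {y₀ : E n} {V : L n}
    (h4 : ‖y₀‖ < 4) (hu : ∀ᶠ y in 𝓝 y₀, ContDiffAt ℝ ∞ u y)
    (hq : ∀ᶠ y in 𝓝 y₀, ContDiffAt ℝ ∞ q y) (hm : IsLocalMax (fun y => f y - q y) y₀)
    (h : trL (fun y => u y + q y) y₀ V < F.F j y₀ (f y₀) V) :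
    ∃ (r : ℝ) (Q : E n → ℝ), 0 < r ∧ ‖y₀‖ + r < 4 ∧ Q y₀ < f y₀ ∧ ∀ y, ‖y - y₀‖ ≤ r →
      ContDiffAt ℝ ∞ Q y ∧ trL (fun y => u y + Q y) y V < F.F j y (Q y) V ∧
        (r / 2 ≤ ‖y - y₀‖ → f y < Q y) := by
  obtain ⟨η, hη, hη4⟩ : ∃ η : ℝ, 0 < η ∧
      trL (fun y => u y + q y) y₀ V + 4 * η = F.F j y₀ (f y₀) V :=
    ⟨(F.F j y₀ (f y₀) V - trL (fun y => u y + q y) y₀ V) / 4, by linarith, by ring⟩
  have hs0 := pv_hs_nonneg V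
  obtain ⟨ε, hε, hεη⟩ : ∃ ε : ℝ, 0 < ε ∧ ε * hs V ≤ η := by
    refine ⟨η / (hs V + 1), by positivity, ?_⟩
    rw [div_mul_eq_mul_div, div_le_iff₀ (by positivity)]
    nlinarith
  obtain ⟨δ, hδ, hl⟩ := Metric.eventually_nhds_iff.1 (pv_lsc F j h4 (f y₀) V hη)
  have hq0 := hq.self_of_nhds
  have hc := pv_trL_cont (hu.self_of_nhds.add hq0) V
  have e1 : ∀ᶠ y in 𝓝 y₀, trL (fun y => u y + q y) y V < trL (fun y => u y + q y) y₀ V + η :=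
    hc.eventually (gt_mem_nhds (by linarith))
  have e2 : ∀ᶠ y in 𝓝 y₀, dist (q y) (q y₀) < δ / 2 :=
    hq0.continuousAt.eventually (ball_mem_nhds _ (by positivity))
  obtain ⟨r₁, hr₁, hb⟩ := Metric.eventually_nhds_iff.1 (hu.and (hq.and (e1.and (e2.and hm))))
  have e3 : ∀ᶠ r : ℝ in 𝓝 0, r < r₁ ∧ r < δ ∧ r < 4 - ‖y₀‖ ∧ ε * r ^ 2 < δ / 2 := by
    refine (gt_mem_nhds hr₁).and ((gt_mem_nhds hδ).and ((gt_mem_nhds (by linarith)).and ?_))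
    have : ContinuousAt (fun r : ℝ => ε * r ^ 2) 0 := by fun_prop
    exact this.eventually (gt_mem_nhds (by simpa using hδ))
  obtain ⟨r, ⟨r1, r2, r3, r4⟩, hr⟩ :=
    ((e3.filter_mono (nhdsWithin_le_nhds (s := Ioi 0))).and self_mem_nhdsWithin).exists
  have hr0 : 0 < r := hr
  have hγ : 0 < ε * r ^ 2 := by positivity
  refine ⟨r, fun y => q y + (ε * ‖y - y₀‖ ^ 2 + (f y₀ - q y₀ - ε * r ^ 2 / 8)), hr0, by linarith,
    by simp; linarith, fun y hy => ?_⟩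
  obtain ⟨a1, a2, a3, a4, a5⟩ := hb (y := y) (by rw [dist_eq_norm]; linarith)
  have hsm := (pv_sq_smooth y₀ ε (f y₀ - q y₀ - ε * r ^ 2 / 8)).contDiffAt (x := y)
  have b1 : 0 ≤ ε * ‖y - y₀‖ ^ 2 := by positivity
  have b2 : ε * ‖y - y₀‖ ^ 2 ≤ ε * r ^ 2 := by gcongr
  refine ⟨a2.add hsm, ?_, fun h2 => ?_⟩
  · have c1 : (fun y => u y + (q y + (ε * ‖y - y₀‖ ^ 2 + (f y₀ - q y₀ - ε * r ^ 2 / 8)))) =
        fun y => (u y + q y) + (ε * ‖y - y₀‖ ^ 2 + (f y₀ - q y₀ - ε * r ^ 2 / 8)) := by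
      funext y; ring
    have h2 : (2 : WithTop ℕ∞) ≤ ∞ := WithTop.coe_le_coe.2 (le_top : (2 : ℕ∞) ≤ ⊤)
    rw [c1, pv_trL_add ((a1.add a2).of_le h2) (hsm.of_le h2), pv_trL_sq]
    have c2 := hl (y := (y, q y + (ε * ‖y - y₀‖ ^ 2 + (f y₀ - q y₀ - ε * r ^ 2 / 8)))) (by
      rw [Prod.dist_eq, max_lt_iff]
      refine ⟨by rw [dist_eq_norm]; exact lt_of_le_of_lt hy r2, ?_⟩
      rw [Real.dist_eq, abs_lt] at a4 ⊢
      constructor <;> simp only <;> linarith [a4.1, a4.2])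
    simp only at c2
    linarith
  · have c3 : ε * (r / 2) ^ 2 ≤ ε * ‖y - y₀‖ ^ 2 := by gcongr
    have c4 : ε * (r / 2) ^ 2 = ε * r ^ 2 / 4 := by ring
    have c5 : f y - q y ≤ f y₀ - q y₀ := a5
    linarith

end Vale.Agent.P272
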