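import Vale.Agent.P272.F.P.Min
import Vale.Agent.P272.F.P.Ext

/-! P272 F/P/BumpB (task). Helper names start with `bumpb_`. Gluing the local function.
Plan. `b : ContDiffBump y₀ := ⟨r / 2, 3 r / 4, _, _⟩`, `g y = b y * (Q y - loc p j y - 1)` is smooth on the target (at points with `‖y - y₀‖ ≤ r` by the hypotheses, elsewhere it vanishes near the point: `b.zero_of_le_dist`), `q = p + 1 + ext j g` (`sm_ext`, `K = closedBall y₀ (3 r / 4)`, inside `closedBall 0 4`, `A.tgt`). `Hy θ F p q`: first half by `st_of_sup`; if `q x ≤ p x` then `x ∈ source j` and `‖e j x - y₀‖ < r / 2` (otherwise `q - p = (1 - b) + b (Q - p) > 0`), there `loc q j = Q` near `e j x` (`b.one_of_mem_closedBall`, `pv_trL_congr`, `ext_of_mem`). Then `exists_min` with `e = 1`, `q x₀ = Q y₀`. -/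

open Metric Set Filter Topology Complex
open scoped ContDiff

noncomputable section

namespace Vale.Agent.P272

variable {n : ℕ} {X : Type} [TopologicalSpace X] {A : Atl n X}

theorem bumpb_ex (y₀ : E n) {r : ℝ} (hr : 0 < r) : ∃ b : E n → ℝ, ContDiff ℝ ∞ b ∧
    (∀ y, 0 ≤ b y ∧ b y ≤ 1) ∧ (∀ y, ‖y - y₀‖ ≤ r / 2 → b y = 1) ∧
    ∀ y, 3 * r / 4 ≤ ‖y - y₀‖ → b y = 0 := by
  let b : ContDiffBump y₀ := ⟨r / 2, 3 * r / 4, by positivity, by linarith⟩
  exact ⟨b, b.contDiff, fun y => ⟨b.nonneg, b.le_one⟩,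
    fun y hy => b.one_of_mem_closedBall (mem_closedBall_iff_norm.2 hy),
    fun y hy => b.zero_of_le_dist (by rwa [dist_eq_norm])⟩

theorem bumpb_pos {b d : ℝ} (h0 : 0 ≤ b) (h1 : b ≤ 1) (hd : 0 < d) : 0 < 1 + b * (d - 1) := by
  rcases h1.eq_or_lt with h | h
  · rw [h]
    linarith
  · have := mul_nonneg h0 hd.le
    linarith

theorem bump_glue [T2Space X] [CompactSpace X] (hn : 1 ≤ n) {θ : A.Pot} {F : A.Rhs} {p : X → ℝ}
    (hp : Atl.Sup θ.u F.F p) {j : Fin A.N} {x₀ : X} (hx : x₀ ∈ (A.e j).source) {r : ℝ}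
    {Q : E n → ℝ} {V : L n} (hr : 0 < r) (h4 : ‖A.e j x₀‖ + r < 4)
    (hQ : ∀ y, ‖y - A.e j x₀‖ ≤ r → ContDiffAt ℝ ∞ Q y ∧
      trL (fun y => θ.u j y + Q y) y V < F.F j y (Q y) V ∧
        (r / 2 ≤ ‖y - A.e j x₀‖ → A.loc p j y < Q y)) :
    ∃ m, Atl.Sup θ.u F.F m ∧ m x₀ ≤ Q (A.e j x₀) := by
  obtain ⟨b, hb, hb01, hb1, hb0⟩ := bumpb_ex (A.e j x₀) hr
  obtain ⟨g, hgd⟩ : ∃ g : E n → ℝ, ∀ y, g y = b y * (Q y - A.loc p j y - 1) := ⟨_, fun _ => rfl⟩
  have hn4 : ∀ y : E n, ‖y - A.e j x₀‖ ≤ r → ‖y‖ < 4 := by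
    intro y hy
    have := norm_le_norm_add_norm_sub' y (A.e j x₀)
    linarith
  have hK : closedBall (A.e j x₀) (3 * r / 4) ⊆ (A.e j).target := by
    intro y hy
    have h1 := mem_closedBall_iff_norm.1 hy
    exact A.tgt j (mem_closedBall_zero_iff.2 (hn4 y (by linarith)).le)
  have hg : ContDiffOn ℝ ∞ g (A.e j).target := by
    intro y hy
    by_cases h : ‖y - A.e j x₀‖ ≤ r
    · have e : g = fun y => b y * (Q y - A.loc p j y - 1) := funext hgd
      rw [e]
      exact (hb.contDiffAt.mul (((hQ y h).1.sub ((hp.1 j).contDiffAt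
        ((A.e j).open_target.mem_nhds hy))).sub contDiffAt_const)).contDiffWithinAt
    · have hc : Continuous fun z : E n => ‖z - A.e j x₀‖ := by fun_prop
      have h1 : ∀ᶠ z in 𝓝 y, 3 * r / 4 < ‖z - A.e j x₀‖ :=
        hc.continuousAt.eventually (lt_mem_nhds (by linarith [not_le.1 h]))
      have ev : g =ᶠ[𝓝 y] fun _ => 0 := by
        filter_upwards [h1] with z hz
        rw [hgd, hb0 z hz.le, zero_mul]
      exact (contDiffAt_const.congr_of_eventuallyEq ev).contDiffWithinAt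
  have h0 : ∀ y ∈ (A.e j).target, y ∉ closedBall (A.e j x₀) (3 * r / 4) → g y = 0 := by
    intro y _ hy
    rw [mem_closedBall_iff_norm, not_le] at hy
    rw [hgd, hb0 y hy.le, zero_mul]
  obtain ⟨q, hqd⟩ : ∃ q : X → ℝ, ∀ x, q x = p x + 1 + A.ext j g x := ⟨_, fun _ => rfl⟩
  have hq : A.Sm q := by
    intro k
    have e : A.loc q k = fun y => A.loc p k y + 1 + A.ext j g ((A.e k).symm y) :=
      funext fun y => hqd _
    rw [e]
    exact ((hp.1 k).add contDiffOn_const).add (sm_ext (isCompact_closedBall _ _) hK hg h0 k)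
  have hx1 : ∀ x ∈ (A.e j).source, q x = p x + 1 + b (A.e j x) * (Q (A.e j x) - p x - 1) := by
    intro x hxs
    rw [hqd, ext_of_mem g hxs, hgd, pv_loc p hxs]
  have hx2 : ∀ x ∈ (A.e j).source, ‖A.e j x - A.e j x₀‖ ≤ r / 2 → q x = Q (A.e j x) := by
    intro x hxs h
    rw [hx1 x hxs, hb1 _ h]
    ring
  have hy : Atl.Hy θ F p q := by
    intro x
    refine ⟨fun _ => st_of_sup hp x, fun hle => ?_⟩
    have hxs : x ∈ (A.e j).source := by
      by_contra hxn
      rw [hqd, ext_of_notMem g hxn] at hle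
      linarith
    have hlt : ‖A.e j x - A.e j x₀‖ < r / 2 := by
      by_contra hge
      rw [not_lt] at hge
      rw [hx1 x hxs] at hle
      by_cases h : ‖A.e j x - A.e j x₀‖ ≤ r
      · have h1 := (hQ _ h).2.2 hge
        rw [pv_loc p hxs] at h1
        have h2 := bumpb_pos (hb01 (A.e j x)).1 (hb01 (A.e j x)).2 (sub_pos.2 h1)
        linarith
      · rw [hb0 _ (by linarith [not_le.1 h])] at hle
        linarith
    have hle' : ‖A.e j x - A.e j x₀‖ ≤ r := by linarith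
    refine ⟨j, V, hxs, hn4 _ hle', ?_⟩
    have hc : Continuous fun z : E n => ‖z - A.e j x₀‖ := by fun_prop
    have h1 : ∀ᶠ z in 𝓝 (A.e j x), ‖z - A.e j x₀‖ < r / 2 :=
      hc.continuousAt.eventually (gt_mem_nhds hlt)
    have ev : (fun y => θ.u j y + A.loc q j y) =ᶠ[𝓝 (A.e j x)] fun y => θ.u j y + Q y := by
      filter_upwards [h1, (A.e j).open_target.mem_nhds ((A.e j).map_source hxs)] with z hz hzt
      have h2 := hx2 _ ((A.e j).map_target hzt)
      rw [(A.e j).right_inv hzt] at h2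
      rw [← h2 hz.le]
      rfl
    rw [pv_trL_congr ev, hx2 x hxs hlt.le]
    exact (hQ _ hle').2.1
  obtain ⟨m, hm, hle⟩ := exists_min hn hp.1 hq hy one_pos
  refine ⟨m, hm, ?_⟩
  rw [← hx2 x₀ hx (by rw [sub_self, norm_zero]; positivity)]
  exact (hle x₀).2

end Vale.Agent.P272
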