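import Vale.Agent.P272.F.P.Dini
import Vale.Agent.P272.F.P.BumpA
import Vale.Agent.P272.F.P.BumpB

/-! P272 F/P/Main (helper24). The Perron envelope. -/

open Metric Set Filter Topology Complex
open scoped ContDiff

noncomputable section

namespace Vale.Agent.P272

variable {n : ℕ} {X : Type} [TopologicalSpace X] {A : Atl n X}

theorem perron [T2Space X] [CompactSpace X] (hn : 1 ≤ n) (θ : A.Pot) (F : A.Rhs) {B m : ℝ}
    (h1 : ∃ φ, Atl.Sup θ.u F.F φ)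
    (h2 : ∀ φ, Atl.Sup θ.u F.F φ → (∀ x, -B ≤ φ x) ∧ ∃ x, m ≤ φ x) :
    ∃ (φ : X → ℝ) (B' : ℝ), Atl.Visc θ.u F.F φ ∧ (∀ x, -B ≤ φ x ∧ φ x ≤ B') ∧ ∃ x, m ≤ φ x := by
  obtain ⟨p₀, hp₀⟩ := h1
  haveI : Nonempty {p : X → ℝ // Atl.Sup θ.u F.F p} := ⟨⟨p₀, hp₀⟩⟩
  obtain ⟨u, hu⟩ : ∃ u : X → ℝ, u = fun x => ⨅ p : {p : X → ℝ // Atl.Sup θ.u F.F p}, p.1 x :=
    ⟨_, rfl⟩
  have hbd : ∀ x, BddBelow (range fun p : {p : X → ℝ // Atl.Sup θ.u F.F p} => p.1 x) :=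
    fun x => ⟨-B, by rintro _ ⟨p, rfl⟩; exact (h2 p.1 p.2).1 x⟩
  have hle : ∀ p, Atl.Sup θ.u F.F p → ∀ x, u x ≤ p x := fun p hp x => by
    rw [hu]
    exact ciInf_le (hbd x) ⟨p, hp⟩
  have hlt : ∀ x c, u x < c → ∃ p, Atl.Sup θ.u F.F p ∧ p x < c := fun x c h => by
    rw [hu] at h
    obtain ⟨p, hp⟩ := exists_lt_of_ciInf_lt h
    exact ⟨p.1, p.2, hp⟩
  have hge : ∀ x, -B ≤ u x := fun x => by
    rw [hu]
    exact le_ciInf fun p => (h2 p.1 p.2).1 x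
  obtain ⟨B', hB'⟩ := (isCompact_range (pv_cont hp₀.1)).bddAbove
  refine ⟨u, B', ⟨?_, ?_⟩, fun x => ⟨hge x, (hle p₀ hp₀ x).trans (hB' ⟨x, rfl⟩)⟩, ?_⟩
  · rw [hu]
    exact upperSemicontinuous_ciInf hbd fun p => (pv_cont p.2.1).upperSemicontinuous
  · intro j x q hx h4 hq hm V
    by_contra hc
    have hθ : ∀ᶠ y in 𝓝 (A.e j x), ContDiffAt ℝ ∞ (θ.u j) y := by
      filter_upwards [(A.e j).open_target.mem_nhds ((A.e j).map_source hx)] with y hy
      exact (θ.sm j).contDiffAt ((A.e j).open_target.mem_nhds hy)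
    have hux : A.loc u j (A.e j x) = u x := pv_loc u hx
    obtain ⟨r, Q, hr, hr4, hQ0, hQ⟩ := bump_loc F j (V := V) h4 hθ hq hm
      (by rw [hux]; exact not_le.1 hc)
    have hT : ∀ y : E n, ‖y - A.e j x‖ ≤ r → y ∈ (A.e j).target := fun y hy => by
      refine A.tgt j (mem_closedBall_zero_iff.2 ?_)
      have := norm_add_le (y - A.e j x) (A.e j x)
      rw [sub_add_cancel] at this
      linarith
    have hS : IsCompact (closedBall (A.e j x) r ∩ {y | r / 2 ≤ ‖y - A.e j x‖}) :=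
      (isCompact_closedBall _ _).inter_right (isClosed_le continuous_const (by fun_prop))
    have hST : closedBall (A.e j x) r ∩ {y | r / 2 ≤ ‖y - A.e j x‖} ⊆ (A.e j).target :=
      fun y hy => hT y (mem_closedBall_iff_norm.1 hy.1)
    have hK := hS.image_of_continuousOn ((A.e j).continuousOn_symm.mono hST)
    obtain ⟨p, hp, hpQ⟩ := dini hn ⟨p₀, hp₀⟩ hK (g := fun x' => Q (A.e j x')) (by
      rintro _ ⟨y, hy, rfl⟩
      have h5 := (hQ y (mem_closedBall_iff_norm.1 hy.1)).1.continuousAt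
      rw [← (A.e j).right_inv (hST hy)] at h5
      exact (h5.comp ((A.e j).continuousAt ((A.e j).map_target (hST hy)))).continuousWithinAt) (by
      rintro _ ⟨y, hy, rfl⟩
      refine hlt _ _ ?_
      rw [(A.e j).right_inv (hST hy)]
      exact (hQ y (mem_closedBall_iff_norm.1 hy.1)).2.2 hy.2)
    obtain ⟨w, hw, hwx⟩ := bump_glue hn hp hx hr hr4 (Q := Q) (V := V) fun y hy =>
      ⟨(hQ y hy).1, (hQ y hy).2.1, fun hy' => by
        have := hpQ _ ⟨y, ⟨mem_closedBall_iff_norm.2 hy, hy'⟩, rfl⟩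
        rwa [(A.e j).right_inv (hT y hy)] at this⟩
    have := hle w hw x
    linarith
  · by_contra hc
    push Not at hc
    obtain ⟨p, hp, hpm⟩ := dini hn ⟨p₀, hp₀⟩ isCompact_univ (g := fun _ => m) continuousOn_const
      fun x _ => hlt x m (hc x)
    obtain ⟨x, hx⟩ := (h2 p hp).2
    exact absurd (hpm x (mem_univ x)) (not_lt.2 hx)

end Vale.Agent.P272
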