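import Vale.Agent.P272.F.P.Defs

/-! P272 F/P/LComp (task). Helper names start with `lcomp_`. The Levi form under a holomorphic map.
Plan. `T' = fderiv ℂ T` is analytic at `y` (`AnalyticAt.fderiv`). Near `y`, `fderiv ℝ (u ∘ T) z = (fderiv ℝ u (T z)).comp ((T' z).restrictScalars ℝ)`. For a fixed `a` differentiate `z ↦ fderiv ℝ u (T z) (T' z a)` (`HasFDerivAt.clm_apply`): `D² (u ∘ T) a a = D² u (T' a) (T' a) + D u (T'' a a)` with `T'' = fderiv ℂ T' y` complex bilinear, so `T'' (I • a) (I • a) = - T'' a a`, and `T' (I • a) = I • T' a`. -/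

open Metric Set Filter Topology Complex
open scoped ContDiff

noncomputable section

namespace Vale.Agent.P272

variable {n : ℕ}

theorem lcomp_key {u : E n → ℝ} {T : E n → E n} {y : E n} (hT : AnalyticAt ℂ T y)
    (hu : ContDiffAt ℝ 2 u (T y)) (a : E n) : fderiv ℝ (fderiv ℝ (u ∘ T)) y a a =
      fderiv ℝ (fderiv ℝ u) (T y) (fderiv ℂ T y a) (fderiv ℂ T y a) +
        fderiv ℝ u (T y) (fderiv ℂ (fderiv ℂ T) y a a) := by
  have e : fderiv ℝ (u ∘ T) =ᶠ[𝓝 y] fun z =>
      (fderiv ℝ u (T z)).comp ((fderiv ℂ T z).restrictScalars ℝ) := by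
    filter_upwards [hT.eventually_analyticAt,
      hT.continuousAt.eventually (hu.eventually (by simp))] with z h1 h2
    exact ((h2.differentiableAt two_ne_zero).hasFDerivAt.comp z
      (h1.differentiableAt.hasFDerivAt.restrictScalars ℝ)).fderiv
  have h1 := ((hu.fderiv_right (m := 1) le_rfl).differentiableAt one_ne_zero).hasFDerivAt.comp y
    (hT.differentiableAt.hasFDerivAt.restrictScalars ℝ)
  have h2 := (ContinuousLinearMap.restrictScalarsL ℂ (E n) (E n) ℝ ℝ).hasFDerivAt.comp y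
    (hT.fderiv.differentiableAt.hasFDerivAt.restrictScalars ℝ)
  rw [e.fderiv_eq]
  exact (congrArg (fun D : E n →L[ℝ] E n →L[ℝ] ℝ => D a a) (h1.clm_comp h2).fderiv).trans
    (add_comm _ _)

theorem pv_levi_comp {u : E n → ℝ} {T : E n → E n} {y : E n} (hT : AnalyticAt ℂ T y)
    (hu : ContDiffAt ℝ 2 u (T y)) (a : E n) :
    levi (u ∘ T) y a = levi u (T y) (fderiv ℂ T y a) := by
  rw [levi, levi, lcomp_key hT hu, lcomp_key hT hu, (fderiv ℂ T y).map_smul,
    (fderiv ℂ (fderiv ℂ T) y).map_smul, (I • fderiv ℂ (fderiv ℂ T) y a).map_smul, smul_apply,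
    smul_smul, I_mul_I, neg_one_smul, map_neg]
  ring

end Vale.Agent.P272
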