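import Vale.Agent.P272.F.P.Defs

/-! P272 F/P/Lv (task). Helper names start with `pv_`. Elementary facts on `levi`, `trL`, `Sm`.
Plan. `fderiv ℝ (fderiv ℝ u)`: `EventuallyEq.fderiv` twice (`Filter.EventuallyEq.fderiv`, then `.fderiv_eq`); sums: `ContDiffAt.eventually` gives differentiability near `y`, `fderiv_fun_add` eventually, then once more (`ContDiffAt.fderiv_right`). `pv_levi_sq`: `‖y - c‖ ^ 2` has derivative `2 • innerSL ℝ (y - c)` (`hasStrictFDerivAt_norm_sq` needs `InnerProductSpace ℝ`: use `InnerProductSpace.complexToReal` / `rclikeToReal` locally or write `‖z‖ ^ 2 = (inner ℂ z z).re` and use the bilinear map), `‖I • a‖ = ‖a‖`. `pv_rank`: `V = (EuclideanSpace.proj i₀).smulRight b`, `i₀ = ⟨0, hn⟩`, `V (eb i) = if i = i₀ then b else 0`, `levi u y 0 = 0`. `pv_cont`: near `x` use the chart `A.ch x` (`(A.cov x).choose_spec`), `φ = loc φ j ∘ e j` on the source. -/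

open Metric Set Filter Topology Complex
open scoped ContDiff

noncomputable section

namespace Vale.Agent.P272

variable {n : ℕ} {X : Type} [TopologicalSpace X] {A : Atl n X}

theorem pv_levi_congr {u v : E n → ℝ} {y : E n} (h : u =ᶠ[𝓝 y] v) (a : E n) :
    levi u y a = levi v y a := by
  unfold levi
  rw [h.fderiv.fderiv_eq]

theorem pv_trL_congr {u v : E n → ℝ} {y : E n} (h : u =ᶠ[𝓝 y] v) (V : L n) :
    trL u y V = trL v y V := by
  exact Finset.sum_congr rfl fun i _ => pv_levi_congr h _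

theorem pv_levi_add {u v : E n → ℝ} {y : E n} (hu : ContDiffAt ℝ 2 u y) (hv : ContDiffAt ℝ 2 v y)
    (a : E n) : levi (fun z => u z + v z) y a = levi u y a + levi v y a := by
  have h1 : fderiv ℝ (fun z => u z + v z) =ᶠ[𝓝 y] fun z => fderiv ℝ u z + fderiv ℝ v z := by
    filter_upwards [hu.eventually (by simp), hv.eventually (by simp)] with z h1 h2
    exact fderiv_fun_add (h1.differentiableAt two_ne_zero) (h2.differentiableAt two_ne_zero)
  unfold levi
  rw [h1.fderiv_eq, fderiv_fun_add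
    ((hu.fderiv_right (m := 1) (by norm_num)).differentiableAt one_ne_zero)
    ((hv.fderiv_right (m := 1) (by norm_num)).differentiableAt one_ne_zero)]
  simp only [add_apply]
  ring

theorem pv_trL_add {u v : E n → ℝ} {y : E n} (hu : ContDiffAt ℝ 2 u y) (hv : ContDiffAt ℝ 2 v y)
    (V : L n) : trL (fun z => u z + v z) y V = trL u y V + trL v y V := by
  simp only [trL, pv_levi_add hu hv, Finset.sum_add_distrib]

theorem pv_levi_sq (c y a : E n) (ε b : ℝ) :
    levi (fun z => ε * ‖z - c‖ ^ 2 + b) y a = ε * ‖a‖ ^ 2 := by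
  have h1 : fderiv ℝ (fun z : E n => ε * ‖z - c‖ ^ 2 + b) =
      fun z => (2 * ε) • (innerSL ℝ z - innerSL ℝ c) := by
    funext z
    have h2 := ((((hasStrictFDerivAt_norm_sq (z - c)).hasFDerivAt.comp z
      ((hasFDerivAt_id z).sub_const c)).const_mul ε).add_const b).fderiv
    refine h2.trans ?_
    ext w
    simp
    ring
  have h3 : HasFDerivAt (fun z : E n => (2 * ε) • (innerSL ℝ z - innerSL ℝ c))
      ((2 * ε) • (innerSL ℝ : E n →L[ℝ] E n →L[ℝ] ℝ)) y :=
    (((innerSL ℝ : E n →L[ℝ] E n →L[ℝ] ℝ).hasFDerivAt).sub_const _).const_smul (2 * ε)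
  unfold levi
  rw [h1, h3.fderiv]
  change (2 * ε * inner ℝ a a + 2 * ε * inner ℝ (I • a) (I • a)) / 4 = _
  rw [real_inner_self_eq_norm_sq, real_inner_self_eq_norm_sq, norm_smul, norm_I, one_mul]
  ring

theorem pv_trL_sq (c y : E n) (V : L n) (ε b : ℝ) :
    trL (fun z => ε * ‖z - c‖ ^ 2 + b) y V = ε * hs V := by
  simp only [trL, hs, pv_levi_sq, Finset.mul_sum]

theorem pv_sq_smooth (c : E n) (ε b : ℝ) : ContDiff ℝ ∞ fun z : E n => ε * ‖z - c‖ ^ 2 + b := by
  exact (contDiff_const.mul ((contDiff_id.sub contDiff_const).norm_sq ℝ)).add contDiff_const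

theorem pv_levi_cont {u : E n → ℝ} {y : E n} (hu : ContDiffAt ℝ ∞ u y) (a : E n) :
    ContinuousAt (fun z => levi u z a) y := by
  have h1 : ContinuousAt (fderiv ℝ (fderiv ℝ u)) y :=
    ((hu.fderiv_right (m := ∞) le_rfl).fderiv_right (m := ∞) le_rfl).continuousAt
  exact (((h1.clm_apply continuousAt_const).clm_apply continuousAt_const).add
    ((h1.clm_apply continuousAt_const).clm_apply continuousAt_const)).div_const _

theorem pv_trL_cont {u : E n → ℝ} {y : E n} (hu : ContDiffAt ℝ ∞ u y) (V : L n) :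
    ContinuousAt (fun z => trL u z V) y := by
  exact tendsto_finsetSum _ fun i _ => pv_levi_cont hu _

theorem pv_hs_nonneg (V : L n) : 0 ≤ hs V := by
  exact Finset.sum_nonneg fun i _ => sq_nonneg _

theorem pv_rank (hn : 1 ≤ n) (b : E n) :
    ∃ V : L n, hs V = ‖b‖ ^ 2 ∧ ∀ (u : E n → ℝ) (y : E n), trL u y V = levi u y b := by
  have h1 : ∀ i, ((EuclideanSpace.proj (⟨0, hn⟩ : Fin n) : E n →L[ℂ] ℂ).smulRight b) (eb i) =
      if i = ⟨0, hn⟩ then b else 0 := fun i => by
    by_cases h : i = ⟨0, hn⟩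
    · simp [eb, h]
    · simp [eb, h, Ne.symm h]
  refine ⟨(EuclideanSpace.proj (⟨0, hn⟩ : Fin n) : E n →L[ℂ] ℂ).smulRight b, ?_, fun u y => ?_⟩
  · rw [hs, Finset.sum_eq_single ⟨0, hn⟩ (fun i _ h => by rw [h1, if_neg h]; simp) (by simp), h1,
      if_pos rfl]
  · rw [trL, Finset.sum_eq_single ⟨0, hn⟩ (fun i _ h => by rw [h1, if_neg h]; simp [levi])
      (by simp), h1, if_pos rfl]

theorem pv_at {φ : X → ℝ} (h : A.Sm φ) {j : Fin A.N} {x : X} (hx : x ∈ (A.e j).source) :
    ContDiffAt ℝ ∞ (A.loc φ j) (A.e j x) := by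
  exact (h j).contDiffAt ((A.e j).open_target.mem_nhds ((A.e j).map_source hx))

theorem pv_pot_at (θ : A.Pot) {j : Fin A.N} {x : X} (hx : x ∈ (A.e j).source) :
    ContDiffAt ℝ ∞ (θ.u j) (A.e j x) := by
  exact (θ.sm j).contDiffAt ((A.e j).open_target.mem_nhds ((A.e j).map_source hx))

theorem pv_loc (φ : X → ℝ) {j : Fin A.N} {x : X} (hx : x ∈ (A.e j).source) :
    A.loc φ j (A.e j x) = φ x := by
  exact congrArg φ ((A.e j).left_inv hx)

theorem pv_cont {φ : X → ℝ} (h : A.Sm φ) : Continuous φ := by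
  refine continuous_iff_continuousAt.2 fun x => ?_
  obtain ⟨j, hx, -⟩ := A.cov x
  refine ((pv_at h hx).continuousAt.comp ((A.e j).continuousAt hx)).congr ?_
  filter_upwards [(A.e j).open_source.mem_nhds hx] with z hz
  exact pv_loc φ hz

/-- Lower semicontinuity of the right side. -/
theorem pv_lsc (F : A.Rhs) (j : Fin A.N) {y : E n} (hy : ‖y‖ < 4) (r : ℝ) (V : L n) {η : ℝ}
    (hη : 0 < η) : ∀ᶠ p : E n × ℝ in 𝓝 (y, r), F.F j y r V ≤ F.F j p.1 p.2 V + η := by
  have h0 := pv_hs_nonneg V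
  obtain ⟨δ, hδ, h⟩ := F.uc (|r| + 1) (η / (hs V + 1)) (by positivity)
  have h1 : ∀ᶠ p : E n × ℝ in 𝓝 (y, r), ‖p.1‖ < 4 :=
    (continuous_fst.norm.continuousAt (x := (y, r))).eventually_lt continuousAt_const hy
  have h2 : ∀ᶠ p : E n × ℝ in 𝓝 (y, r), ‖p.1 - y‖ < δ :=
    ((continuous_fst.sub continuous_const).norm.continuousAt (x := (y, r))).eventually_lt
      continuousAt_const (by simpa using hδ)
  have h3 : ∀ᶠ p : E n × ℝ in 𝓝 (y, r), |p.2 - r| < δ :=
    ((continuous_snd.sub continuous_const).abs.continuousAt (x := (y, r))).eventually_lt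
      continuousAt_const (by simpa using hδ)
  have h4 : ∀ᶠ p : E n × ℝ in 𝓝 (y, r), |p.2| < |r| + 1 :=
    (continuous_snd.abs.continuousAt (x := (y, r))).eventually_lt continuousAt_const (lt_add_one _)
  filter_upwards [h1, h2, h3, h4] with p a1 a2 a3 a4
  refine (h j p.1 y p.2 r V a1.le hy.le a4.le (lt_add_one _).le a2.le a3.le).trans
    (add_le_add_right ?_ _)
  rw [div_mul_eq_mul_div, div_le_iff₀ (by positivity)]
  exact mul_le_mul_of_nonneg_left (lt_add_one _).le hη.le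

end Vale.Agent.P272
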