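import Vale.Agent.P272.F.Defs
import Vale.Agent.P272.BasA1

/-! P272 F/P (owner helper24, frozen): definitions for the Perron block. No task here. -/

open Metric Set Filter Topology Complex
open scoped ContDiff

noncomputable section

namespace Vale.Agent.P272

variable {n : ℕ} {X : Type} [TopologicalSpace X] {A : Atl n X}

namespace Atl

/-- The strict inequality at one point, in one chart. -/
def St (θ : A.Pot) (F : A.Rhs) (φ : X → ℝ) (x : X) : Prop :=
  ∃ j V, x ∈ (A.e j).source ∧ ‖A.e j x‖ < 4 ∧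
    trL (fun y => θ.u j y + A.loc φ j y) (A.e j x) V < F.F j (A.e j x) (φ x) V

/-- The smaller of the two functions is strict. -/
def Hy (θ : A.Pot) (F : A.Rhs) (p q : X → ℝ) : Prop :=
  ∀ x, (p x ≤ q x → St θ F p x) ∧ (q x ≤ p x → St θ F q x)

/-- Zero is not a critical value at `x`. -/
def Rg (A : Atl n X) (d : X → ℝ) (x : X) : Prop :=
  d x = 0 → ∃ j, x ∈ (A.e j).source ∧ ‖A.e j x‖ < 4 ∧ fderiv ℝ (A.loc d j) (A.e j x) ≠ 0

/-- A smooth family of functions. -/
def SmF (A : Atl n X) {P : Type} [NormedAddCommGroup P] [NormedSpace ℝ P] (G : P → X → ℝ) : Prop :=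
  ∀ j, ContDiffOn ℝ ∞ (fun p : P × E n => A.loc (G p.1) j p.2) (univ ×ˢ (A.e j).target)

/-- Extension by zero of a function on the chart `j`. -/
def ext (A : Atl n X) {B : Type} [Zero B] (j : Fin A.N) (g : E n → B) : X → B :=
  indicator (A.e j).source fun x => g (A.e j x)

end Atl

/-- The smooth minimum. -/
def lse (h : ℝ) (p q : X → ℝ) (x : X) : ℝ :=
  -h * Real.log (Real.exp (-p x / h) + Real.exp (-q x / h))

end Vale.Agent.P272
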