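import Vale.Agent.P272.F.P.Min

/-! P272 F/P/Dini (task). Helper names start with `dini_`.
Plan. `IsCompact.induction_on` for `Q S := ∃ p γ, Sup p ∧ 0 < γ ∧ ∀ x ∈ S, p x + γ ≤ g x`; union by `exists_min` (`Hy` from `st_of_sup`) with `e = min γ γ' / 2`; near a point by `pv_cont` and `ContinuousWithinAt`. -/

open Metric Set Filter Topology Complex
open scoped ContDiff

noncomputable section

namespace Vale.Agent.P272

variable {n : ℕ} {X : Type} [TopologicalSpace X] {A : Atl n X}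

theorem dini [T2Space X] [CompactSpace X] (hn : 1 ≤ n) {θ : A.Pot} {F : A.Rhs}
    (h1 : ∃ φ, Atl.Sup θ.u F.F φ) {K : Set X} (hK : IsCompact K) {g : X → ℝ}
    (hg : ContinuousOn g K) (h : ∀ x ∈ K, ∃ p, Atl.Sup θ.u F.F p ∧ p x < g x) :
    ∃ p, Atl.Sup θ.u F.F p ∧ ∀ x ∈ K, p x < g x := by
  have key : ∃ (p : X → ℝ) (γ : ℝ), Atl.Sup θ.u F.F p ∧ 0 < γ ∧ ∀ x ∈ K, p x + γ ≤ g x := by
    refine hK.induction_on
      (p := fun S => ∃ (p : X → ℝ) (γ : ℝ), Atl.Sup θ.u F.F p ∧ 0 < γ ∧ ∀ x ∈ S, p x + γ ≤ g x)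
      ?_ ?_ ?_ ?_
    · obtain ⟨φ, hφ⟩ := h1
      exact ⟨φ, 1, hφ, one_pos, fun x hx => hx.elim⟩
    · rintro S T hST ⟨p, γ, hp, hγ, hb⟩
      exact ⟨p, γ, hp, hγ, fun x hx => hb x (hST hx)⟩
    · rintro S T ⟨p, γ, hp, hγ, hb⟩ ⟨q, γ', hq, hγ', hb'⟩
      obtain ⟨m, hm, hle⟩ := exists_min hn hp.1 hq.1
        (fun x => ⟨fun _ => st_of_sup hp x, fun _ => st_of_sup hq x⟩) (half_pos hγ)
      refine ⟨m, min (γ / 2) γ', hm, lt_min (half_pos hγ) hγ', ?_⟩
      rintro x (hx | hx)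
      · have h2 := hb x hx
        have h3 := (hle x).1
        have h4 := min_le_left (γ / 2) γ'
        linarith
      · have h2 := hb' x hx
        have h3 := (hle x).2
        have h4 := min_le_right (γ / 2) γ'
        linarith
    · intro x hx
      obtain ⟨p, hp, hlt⟩ := h x hx
      have hc : ContinuousWithinAt (fun y => g y - p y) K x :=
        (hg x hx).sub (pv_cont hp.1).continuousWithinAt
      have h2 : (g x - p x) / 2 < g x - p x := by linarith
      refine ⟨{y | (g x - p x) / 2 < g y - p y}, hc.eventually (lt_mem_nhds h2), p,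
        (g x - p x) / 2, hp, by linarith, fun y hy => ?_⟩
      have h3 : (g x - p x) / 2 < g y - p y := hy
      linarith
  obtain ⟨p, γ, hp, hγ, hb⟩ := key
  exact ⟨p, hp, fun x hx => by linarith [hb x hx]⟩

end Vale.Agent.P272
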