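import Vale.Agent.P272.F.P.Lv

/-! P272 F/P/Fam (task). Helper names start with `fam_`. Joint continuity for smooth families.
Plan. `ContDiffAt.fderiv` (Mathlib.Analysis.Calculus.ContDiff.Comp) with `f := fun (p : P × E n) y => loc (G p.1) j y`, `g := Prod.snd` gives `fam_d1` (smooth version first); a second use with `f := fun p y => fderiv ℝ (loc (G p.1) j) y` gives the second derivative, then evaluate (`ContinuousAt.clm_apply`). `fam_cont`: chart `A.ch x`, `(c, x) ↦ (c, e j x)` is continuous at `(c₀, x₀)`, `pv_loc` eventually. -/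

open Metric Set Filter Topology Complex
open scoped ContDiff

noncomputable section

namespace Vale.Agent.P272

variable {n : ℕ} {X : Type} [TopologicalSpace X] {A : Atl n X}

variable {P : Type} [NormedAddCommGroup P] [NormedSpace ℝ P] {G : P → X → ℝ}

theorem fam_at (h : A.SmF G) (j : Fin A.N) (c : P) {y : E n} (hy : y ∈ (A.e j).target) :
    ContDiffAt ℝ ∞ (fun z : P × E n => A.loc (G z.1) j z.2) (c, y) :=
  (h j).contDiffAt ((isOpen_univ.prod (A.e j).open_target).mem_nhds ⟨mem_univ _, hy⟩)

theorem fam_der {B : Type} [NormedAddCommGroup B] [NormedSpace ℝ B] {f : P → E n → B} {c : P}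
    {y : E n} (h : ContDiffAt ℝ ∞ (fun z : P × E n => f z.1 z.2) (c, y)) :
    ContDiffAt ℝ ∞ (fun z : P × E n => fderiv ℝ (f z.1) z.2) (c, y) := by
  refine ContDiffAt.fderiv (f := fun (z : P × E n) (y : E n) => f z.1 y) (g := Prod.snd) (n := ∞)
    ?_ contDiffAt_snd (by simp)
  have h1 : ContDiff ℝ ∞ fun z : (P × E n) × E n => (z.1.1, z.2) :=
    (contDiff_fst.comp contDiff_fst).prodMk contDiff_snd
  exact ContDiffAt.comp (g := fun z : P × E n => f z.1 z.2) ((c, y), y) h h1.contDiffAt

theorem fam_sm (h : A.SmF G) (c : P) : A.Sm (G c) := by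
  intro j y hy
  have h1 : ContDiff ℝ ∞ fun y : E n => (c, y) := contDiff_const.prodMk contDiff_id
  exact ((fam_at h j c hy).comp y h1.contDiffAt).contDiffWithinAt

theorem fam_const {p : X → ℝ} (h : A.Sm p) : A.SmF fun (_ : P) => p := by
  intro j
  exact (h j).comp contDiff_snd.contDiffOn fun z hz => hz.2

theorem fam_sub {p : X → ℝ} (h : A.SmF G) (hp : A.Sm p) : A.SmF fun c x => G c x - p x := by
  intro j
  exact (h j).sub (fam_const (P := P) hp j)

theorem fam_cont (h : A.SmF G) : Continuous fun z : P × X => G z.1 z.2 := by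
  refine continuous_iff_continuousAt.2 fun ⟨c, x⟩ => ?_
  obtain ⟨j, hj, -⟩ := A.cov x
  have h1 : ContinuousAt (fun z : P × X => (z.1, A.e j z.2)) (c, x) :=
    continuousAt_fst.prodMk (ContinuousAt.comp (f := Prod.snd) (g := A.e j)
      ((A.e j).continuousAt hj) continuousAt_snd)
  have h2 := ContinuousAt.comp (f := fun z : P × X => (z.1, A.e j z.2)) (x := (c, x))
    (fam_at h j c ((A.e j).map_source hj)).continuousAt h1
  refine h2.congr ?_
  have h3 : ∀ᶠ z : P × X in 𝓝 (c, x), z.2 ∈ (A.e j).source :=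
    continuousAt_snd.eventually ((A.e j).open_source.mem_nhds hj)
  filter_upwards [h3] with z hz
  exact pv_loc (G z.1) hz

theorem fam_d1 (h : A.SmF G) (j : Fin A.N) (c : P) {y : E n} (hy : y ∈ (A.e j).target) :
    ContinuousAt (fun z : P × E n => fderiv ℝ (A.loc (G z.1) j) z.2) (c, y) := by
  exact (fam_der (f := fun c => A.loc (G c) j) (fam_at h j c hy)).continuousAt

theorem fam_trL (h : A.SmF G) (j : Fin A.N) (c : P) {y : E n} (hy : y ∈ (A.e j).target) (V : L n) :
    ContinuousAt (fun z : P × E n => trL (A.loc (G z.1) j) z.2 V) (c, y) := by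
  have h2 := (fam_der (f := fun c => fderiv ℝ (A.loc (G c) j))
    (fam_der (f := fun c => A.loc (G c) j) (fam_at h j c hy))).continuousAt
  unfold trL levi
  refine tendsto_finset_sum _ fun i _ => ?_
  exact (((h2.clm_apply continuousAt_const).clm_apply continuousAt_const).add
    ((h2.clm_apply continuousAt_const).clm_apply continuousAt_const)).div_const 4

end Vale.Agent.P272
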