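import Vale.Agent.P272.F.P.Lv

/-! P272 F/P/Lse (task). Helper names start with `lse_`. Calculus of the smooth minimum.
Plan. Weight `w u v = exp (-u/h) / (exp (-u/h) + exp (-v/h))`. On `E n`, for `u`, `v` of class `C^2` at `y`, `m = lse h u v`: near `y`, `fderiv m z = w z • fderiv u z + (1 - w z) • fderiv v z`; `fderiv w y = -(w (1 - w) / h) • (fderiv u y - fderiv v y)`; so `D² m a a = w D² u a a + (1 - w) D² v a a - w (1 - w) / h * (fderiv (u - v) y a) ^ 2` (`HasFDerivAt.smul`). `A.loc (lse h p q) j = lse h (loc p j) (loc q j)` by `rfl`. -/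

open Metric Set Filter Topology Complex
open scoped ContDiff

noncomputable section

namespace Vale.Agent.P272

variable {n : ℕ} {X : Type} [TopologicalSpace X] {A : Atl n X}

theorem lse_chain {φ φ' : ℝ → ℝ} {c : ℝ} {d : E n → ℝ} {y : E n}
    (hφ : ∀ s, HasDerivAt φ (φ' s) s) (hφ' : HasDerivAt φ' c (d y)) (hd : ContDiffAt ℝ 2 d y)
    (a : E n) : fderiv ℝ (fderiv ℝ fun z => φ (d z)) y a a =
      φ' (d y) * fderiv ℝ (fderiv ℝ d) y a a + c * (fderiv ℝ d y a) ^ 2 := by
  have h1 : ∀ᶠ z in 𝓝 y, DifferentiableAt ℝ d z :=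
    (hd.eventually (by simp)).mono fun z hz => hz.differentiableAt (by simp)
  have h2 : fderiv ℝ (fun z => φ (d z)) =ᶠ[𝓝 y] fun z => φ' (d z) • fderiv ℝ d z :=
    h1.mono fun z hz => ((hφ (d z)).comp_hasFDerivAt z hz.hasFDerivAt).fderiv
  have h3 : HasFDerivAt (fderiv ℝ d) (fderiv ℝ (fderiv ℝ d) y) y :=
    ((hd.fderiv_right (m := 1) (by norm_num)).differentiableAt (by simp)).hasFDerivAt
  have h4 : HasFDerivAt (fun z => φ' (d z) • fderiv ℝ d z) _ y :=
    (hφ'.comp_hasFDerivAt y h1.self_of_nhds.hasFDerivAt).smul h3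
  rw [h2.fderiv_eq, h4.fderiv]
  simp
  ring

theorem lse_d1 {h : ℝ} (h0 : 0 < h) (s : ℝ) :
    HasDerivAt (fun s => -h * Real.log (Real.exp (-s / h) + 1))
      (Real.exp (-s / h) / (Real.exp (-s / h) + 1)) s := by
  have h1 : HasDerivAt (fun s : ℝ => -s / h) (-1 / h) s := (hasDerivAt_neg s).div_const h
  have h2 : Real.exp (-s / h) + 1 ≠ 0 := by positivity
  refine (((h1.exp.add_const 1).log h2).const_mul (-h)).congr_deriv ?_
  field_simp

theorem lse_d2 {h : ℝ} (h0 : 0 < h) (s : ℝ) :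
    HasDerivAt (fun s => Real.exp (-s / h) / (Real.exp (-s / h) + 1))
      (-(Real.exp (-s / h) / (Real.exp (-s / h) + 1) *
        (1 - Real.exp (-s / h) / (Real.exp (-s / h) + 1)) / h)) s := by
  have h1 : HasDerivAt (fun s : ℝ => -s / h) (-1 / h) s := (hasDerivAt_neg s).div_const h
  have h2 : Real.exp (-s / h) + 1 ≠ 0 := by positivity
  refine (h1.exp.div (h1.exp.add_const 1) h2).congr_deriv ?_
  field_simp
  ring

theorem lse_exp (s t h : ℝ) : Real.exp (-s / h) = Real.exp (-t / h) * Real.exp (-(s - t) / h) := by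
  rw [← Real.exp_add]
  congr 1
  ring

theorem lse_eq {h : ℝ} (h0 : 0 < h) (u v : E n → ℝ) :
    lse h u v = fun z => v z + -h * Real.log (Real.exp (-(u z - v z) / h) + 1) := by
  funext z
  rw [lse, lse_exp (u z) (v z), ← mul_add_one, Real.log_mul (by positivity) (by positivity),
    Real.log_exp]
  field_simp
  ring

theorem lse_sm {p q : X → ℝ} (hp : A.Sm p) (hq : A.Sm q) (h : ℝ) : A.Sm (lse h p q) := by
  intro j
  exact contDiffOn_const.mul
    ((((hp j).neg.div_const h).exp.add ((hq j).neg.div_const h).exp).log fun y _ => by positivity)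

theorem lse_levi {u v : E n → ℝ} {y : E n} (hu : ContDiffAt ℝ 2 u y) (hv : ContDiffAt ℝ 2 v y)
    {h a : ℝ} (h0 : 0 < h)
    (ha : a = Real.exp (-u y / h) / (Real.exp (-u y / h) + Real.exp (-v y / h))) (b : E n) :
    levi (lse h u v) y b ≤ a * levi u y b + (1 - a) * levi v y b -
      a * (1 - a) / (4 * h) * (fderiv ℝ (fun z => u z - v z) y b) ^ 2 := by
  have hd : ContDiffAt ℝ 2 (fun z => u z - v z) y := hu.sub hv
  have ha' : a = Real.exp (-(u y - v y) / h) / (Real.exp (-(u y - v y) / h) + 1) := by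
    rw [ha, lse_exp (u y) (v y), ← mul_add_one, mul_div_mul_left _ _ (Real.exp_ne_zero _)]
  have hc := fun b => lse_chain (d := fun z => u z - v z) (lse_d1 h0) (lse_d2 h0 (u y - v y)) hd b
  have h1 : levi u y b = levi (fun z => u z - v z) y b + levi v y b := by
    rw [← pv_levi_add hd hv]
    simp
  have h2 : ContDiffAt ℝ 2 (fun z => -h * Real.log (Real.exp (-(u z - v z) / h) + 1)) y :=
    contDiffAt_const.mul (((hd.neg.div_const h).exp.add contDiffAt_const).log (by positivity))
  have h3 : 0 ≤ a * (1 - a) / h := by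
    have e := Real.exp_pos (-(u y - v y) / h)
    have a0 : 0 ≤ a := by rw [ha']; positivity
    have a1 : a ≤ 1 := by rw [ha', div_le_one (by positivity)]; linarith
    exact div_nonneg (mul_nonneg a0 (by linarith)) h0.le
  have h4 : a * (1 - a) / (4 * h) = a * (1 - a) / h / 4 := by field_simp
  rw [lse_eq h0, pv_levi_add hv h2, h1, h4]
  simp only [← ha'] at hc
  simp only [levi, hc]
  nlinarith [mul_nonneg h3 (sq_nonneg (fderiv ℝ (fun z => u z - v z) y (I • b)))]

theorem lse_spec {p q : X → ℝ} (hp : A.Sm p) (hq : A.Sm q) {h : ℝ} (h0 : 0 < h) (x : X) :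
    ∃ a : ℝ, 0 < a ∧ a < 1 ∧ lse h p q x = p x + h * Real.log a ∧
      lse h p q x = q x + h * Real.log (1 - a) ∧ ∀ j b, x ∈ (A.e j).source →
        levi (A.loc (lse h p q) j) (A.e j x) b ≤
          a * levi (A.loc p j) (A.e j x) b + (1 - a) * levi (A.loc q j) (A.e j x) b -
            a * (1 - a) / (4 * h) * (fderiv ℝ (A.loc (fun x => p x - q x) j) (A.e j x) b) ^ 2 := by
  have e1 := Real.exp_pos (-p x / h)
  have e2 := Real.exp_pos (-q x / h)
  refine ⟨Real.exp (-p x / h) / (Real.exp (-p x / h) + Real.exp (-q x / h)), by positivity,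
    by rw [div_lt_one (by positivity)]; linarith, ?_, ?_, fun j b hx => ?_⟩
  · rw [lse, Real.log_div e1.ne' (by positivity), Real.log_exp]
    field_simp
    ring
  · rw [lse, one_sub_div (by positivity), add_sub_cancel_left, Real.log_div e2.ne' (by positivity),
      Real.log_exp]
    field_simp
    ring
  · exact lse_levi (u := A.loc p j) (v := A.loc q j) ((pv_at hp hx).of_le (by norm_cast))
      ((pv_at hq hx).of_le (by norm_cast)) h0 (by rw [pv_loc p hx, pv_loc q hx]) b

end Vale.Agent.P272
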