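import Vale.Agent.P272.F.P.Lv

/-! P272 F/P/Marg (task). Helper names start with `marg_`. Two local criteria for `St`.
Plan. `marg_one`: keep `j`, `V`, margin `4 η`; near `x₀`: `trL (θ + loc p) ≤ value + η`, `|trL (loc q) - trL (loc p)| ≤ M` (`pv_trL_cont`), `s M ≤ η`, `pv_lsc` at `(e j x₀, p x₀)` (`Metric.eventually_nhds_iff` / `nhds_prod_eq`, `pv_cont`), sum the hypothesis over `b = V (eb i)`, `pv_trL_add`. `marg_two`: `b` with `κ = (fderiv d y₀ b) ^ 2 > 0`, near `x₀` it is `≥ κ / 2` and `levi θ b`, `levi p b`, `levi q b` are `≤ M`; `V` from `pv_rank`, `C` from `F.lo R`; `T κ / 2 > 2 M + |C| ‖b‖ ^ 2`. -/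

open Metric Set Filter Topology Complex
open scoped ContDiff

noncomputable section

namespace Vale.Agent.P272

variable {n : ℕ} {X : Type} [TopologicalSpace X] {A : Atl n X}

theorem marg_le : (2 : WithTop ℕ∞) ≤ ∞ := ENat.LEInfty.out

theorem marg_ev {f : X → ℝ} {x₀ : X} (hf : ContinuousAt f x₀) {η : ℝ} (hη : 0 < η) :
    ∀ᶠ x in 𝓝 x₀, f x < f x₀ + η := hf.eventually (gt_mem_nhds (by linarith))

theorem marg_one {θ : A.Pot} {F : A.Rhs} {p q : X → ℝ} (hp : A.Sm p) (hq : A.Sm q) {x₀ : X}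
    (h : Atl.St θ F p x₀) : ∃ s : ℝ, 0 < s ∧ ∀ᶠ x in 𝓝 x₀, ∀ (m : X → ℝ) (a : ℝ), A.Sm m →
      |m x - p x| ≤ s → 0 ≤ a → a ≤ s → (∀ j b, x ∈ (A.e j).source →
        levi (A.loc m j) (A.e j x) b ≤
          (1 - a) * levi (A.loc p j) (A.e j x) b + a * levi (A.loc q j) (A.e j x) b) →
      Atl.St θ F m x := by
  obtain ⟨j, V, hx, h4, hlt⟩ := h
  rw [pv_trL_add ((pv_pot_at θ hx).of_le marg_le) ((pv_at hp hx).of_le marg_le)] at hlt
  obtain ⟨η, hη⟩ : ∃ η : ℝ, η = (F.F j (A.e j x₀) (p x₀) V -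
    (trL (θ.u j) (A.e j x₀) V + trL (A.loc p j) (A.e j x₀) V)) / 4 := ⟨_, rfl⟩
  have hη0 : 0 < η := by linarith
  have he : ContinuousAt (A.e j) x₀ := (A.e j).continuousAt hx
  have cθ := (pv_trL_cont (pv_pot_at θ hx) V).comp he
  have cp := (pv_trL_cont (pv_at hp hx) V).comp he
  have cq := (pv_trL_cont (pv_at hq hx) V).comp he
  obtain ⟨M, hM⟩ : ∃ M : ℝ, M = |trL (A.loc q j) (A.e j x₀) V - trL (A.loc p j) (A.e j x₀) V| + 1 :=
    ⟨_, rfl⟩
  have hM0 : 0 < M := by rw [hM]; positivity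
  obtain ⟨ε, hε, hF⟩ := Metric.eventually_nhds_iff.1 (pv_lsc F j h4 (p x₀) V hη0)
  refine ⟨min (ε / 2) (η / M), lt_min (by positivity) (by positivity), ?_⟩
  filter_upwards [marg_ev (cθ.add cp) hη0, marg_ev (cq.sub cp) one_pos,
    (A.e j).open_source.mem_nhds hx, he.norm.eventually (gt_mem_nhds h4),
    he.eventually (ball_mem_nhds _ hε),
    (pv_cont hp).continuousAt.eventually (ball_mem_nhds _ (half_pos hε))]
    with x h1 h2 h3 h5 h6 h7 m a hm hs ha has hl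
  refine ⟨j, V, h3, h5, ?_⟩
  rw [pv_trL_add ((pv_pot_at θ h3).of_le marg_le) ((pv_at hm h3).of_le marg_le)]
  have h8 : trL (A.loc m j) (A.e j x) V ≤
      (1 - a) * trL (A.loc p j) (A.e j x) V + a * trL (A.loc q j) (A.e j x) V := by
    simp only [trL, Finset.mul_sum, ← Finset.sum_add_distrib]
    exact Finset.sum_le_sum fun i _ => hl j _ h3
  have h9 : dist (A.e j x, m x) (A.e j x₀, p x₀) < ε := by
    rw [Prod.dist_eq]
    refine max_lt h6 ((dist_triangle _ (p x) _).trans_lt ?_)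
    have h10 : dist (m x) (p x) ≤ ε / 2 := hs.trans (min_le_left _ _)
    have h11 : dist (p x) (p x₀) < ε / 2 := h7
    linarith
  have h10 := hF h9
  have h11 : a * M ≤ η := (le_div_iff₀ hM0).1 (has.trans (min_le_right _ _))
  have h12 : trL (A.loc q j) (A.e j x) V - trL (A.loc p j) (A.e j x) V ≤ M := by
    have h13 := le_abs_self (trL (A.loc q j) (A.e j x₀) V - trL (A.loc p j) (A.e j x₀) V)
    simp only [Pi.sub_apply, Function.comp_apply] at h2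
    linarith
  have h13 := mul_le_mul_of_nonneg_left h12 ha
  simp only [Pi.add_apply, Function.comp_apply] at h1 h10
  linarith

theorem marg_two (hn : 1 ≤ n) (θ : A.Pot) (F : A.Rhs) {p q d : X → ℝ} (hp : A.Sm p) (hq : A.Sm q)
    (hd : A.Sm d) {x₀ : X} {j : Fin A.N} (hj : x₀ ∈ (A.e j).source) (h4 : ‖A.e j x₀‖ < 4)
    (h : fderiv ℝ (A.loc d j) (A.e j x₀) ≠ 0) (R : ℝ) :
    ∃ T : ℝ, ∀ᶠ x in 𝓝 x₀, ∀ (m : X → ℝ) (a t : ℝ), A.Sm m → |m x| ≤ R → 0 ≤ a → a ≤ 1 → T ≤ t →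
      (∀ b, x ∈ (A.e j).source → levi (A.loc m j) (A.e j x) b ≤
        a * levi (A.loc p j) (A.e j x) b + (1 - a) * levi (A.loc q j) (A.e j x) b -
          t * (fderiv ℝ (A.loc d j) (A.e j x) b) ^ 2) → Atl.St θ F m x := by
  obtain ⟨b, hb⟩ := ContinuousLinearMap.exists_ne_zero h
  obtain ⟨V, hV, hV'⟩ := pv_rank hn b
  obtain ⟨C, hC⟩ := F.lo R
  obtain ⟨κ, hκ⟩ : ∃ κ : ℝ, κ = (fderiv ℝ (A.loc d j) (A.e j x₀) b) ^ 2 := ⟨_, rfl⟩
  have hκ0 : 0 < κ := by rw [hκ]; positivity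
  have he : ContinuousAt (A.e j) x₀ := (A.e j).continuousAt hj
  have cθ := (pv_levi_cont (pv_pot_at θ hj) b).comp he
  have cp := (pv_levi_cont (pv_at hp hj) b).comp he
  have cq := (pv_levi_cont (pv_at hq hj) b).comp he
  have cd : ContinuousAt (fun x => -(fderiv ℝ (A.loc d j) (A.e j x) b) ^ 2) x₀ :=
    ((((((pv_at hd hj).fderiv_right (m := 1) marg_le).continuousAt.comp he).clm_apply
      continuousAt_const)).pow 2).neg
  obtain ⟨M, hM⟩ : ∃ M : ℝ, M = |levi (A.loc p j) (A.e j x₀) b| + |levi (A.loc q j) (A.e j x₀) b| + 1 :=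
    ⟨_, rfl⟩
  obtain ⟨N, hN⟩ : ∃ N : ℝ, N = |levi (θ.u j) (A.e j x₀) b| + 1 + M + |C| * ‖b‖ ^ 2 := ⟨_, rfl⟩
  have hN0 : 0 ≤ N := by rw [hN, hM]; positivity
  refine ⟨N / (κ / 2), ?_⟩
  filter_upwards [marg_ev cθ one_pos, marg_ev cp one_pos, marg_ev cq one_pos,
    marg_ev cd (half_pos hκ0), (A.e j).open_source.mem_nhds hj,
    he.norm.eventually (gt_mem_nhds h4)] with x h1 h2 h3 h5 h6 h7 m a t hm hR ha ha1 ht hl
  refine ⟨j, V, h6, h7, ?_⟩
  rw [hV', pv_levi_add ((pv_pot_at θ h6).of_le marg_le) ((pv_at hm h6).of_le marg_le)]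
  have h8 := hl b h6
  have h9 := hC j (A.e j x) (m x) V h7.le hR
  rw [hV] at h9
  simp only [Function.comp_apply] at h1 h2 h3
  have a1 := le_abs_self (levi (θ.u j) (A.e j x₀) b)
  have a2 := le_abs_self (levi (A.loc p j) (A.e j x₀) b)
  have a3 := le_abs_self (levi (A.loc q j) (A.e j x₀) b)
  have a4 := abs_nonneg (levi (A.loc p j) (A.e j x₀) b)
  have a5 := abs_nonneg (levi (A.loc q j) (A.e j x₀) b)
  have a6 := mul_le_mul_of_nonneg_right (le_abs_self C) (sq_nonneg ‖b‖)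
  have b1 := mul_le_mul_of_nonneg_left (show levi (A.loc p j) (A.e j x) b ≤ M by linarith) ha
  have b2 := mul_le_mul_of_nonneg_left (show levi (A.loc q j) (A.e j x) b ≤ M by linarith)
    (sub_nonneg.2 ha1)
  have b3 : N ≤ t * (κ / 2) := (div_le_iff₀ (half_pos hκ0)).1 ht
  have b4 : 0 ≤ t := le_trans (by positivity) ht
  have b5 := mul_le_mul_of_nonneg_left
    (show κ / 2 ≤ (fderiv ℝ (A.loc d j) (A.e j x) b) ^ 2 by linarith) b4
  linarith

end Vale.Agent.P272
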