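import Vale.Agent.P272.F.P.Lv
import Vale.Agent.P272.F.P.LComp

/-! P272 F/P/St (task). Helper names start with `st_`. Change of chart.
Plan. `st_trL`: near `e k x`, `loc φ k = loc φ j ∘ (e j ∘ (e k).symm)`; `pv_levi_comp` with `Atl.tr_analytic`, `pv_levi_add`, `θ.cmp`. `sup_of_st`: given `(j, V)` from `St` and a chart `k`, take `tr k j x * V` (`Atl.tr_mul`, `F.cmp`). `st_of_sup`: the chart `A.ch x` (`(A.cov x).choose_spec`). -/

open Metric Set Filter Topology Complex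
open scoped ContDiff

noncomputable section

namespace Vale.Agent.P272

variable {n : ℕ} {X : Type} [TopologicalSpace X] {A : Atl n X}

theorem st_trL (θ : A.Pot) {φ : X → ℝ} (h : A.Sm φ) {j k : Fin A.N} {x : X}
    (hj : x ∈ (A.e j).source) (hk : x ∈ (A.e k).source) (V : L n) :
    trL (fun y => θ.u k y + A.loc φ k y) (A.e k x) V =
      trL (fun y => θ.u j y + A.loc φ j y) (A.e j x) (A.tr j k x * V) := by
  have h2 : (2 : WithTop ℕ∞) ≤ ∞ := by norm_cast
  have hx : (A.e j ∘ (A.e k).symm) (A.e k x) = A.e j x := congrArg (A.e j) ((A.e k).left_inv hk)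
  have ev : A.loc φ k =ᶠ[𝓝 (A.e k x)] A.loc φ j ∘ (A.e j ∘ (A.e k).symm) := by
    have hc : ContinuousAt (A.e k).symm (A.e k x) :=
      (A.e k).continuousAt_symm ((A.e k).map_source hk)
    have hm : (A.e j).source ∈ 𝓝 ((A.e k).symm (A.e k x)) := by
      rw [(A.e k).left_inv hk]
      exact (A.e j).open_source.mem_nhds hj
    filter_upwards [hc hm] with y hy
    exact (pv_loc φ hy).symm
  rw [pv_trL_add ((pv_pot_at θ hk).of_le h2) ((pv_at h hk).of_le h2),
    pv_trL_add ((pv_pot_at θ hj).of_le h2) ((pv_at h hj).of_le h2), pv_trL_congr ev]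
  refine congrArg₂ (· + ·) (Finset.sum_congr rfl fun i _ => θ.cmp j k x hj hk _)
    (Finset.sum_congr rfl fun i _ => ?_)
  rw [pv_levi_comp (Atl.tr_analytic hj hk) (hx ▸ (pv_at h hj).of_le h2), hx]
  rfl

theorem sup_of_st {θ : A.Pot} {F : A.Rhs} {φ : X → ℝ} (h : A.Sm φ) (hs : ∀ x, Atl.St θ F φ x) :
    Atl.Sup θ.u F.F φ := by
  refine ⟨h, fun k x hk => ?_⟩
  obtain ⟨j, V, hj, -, hV⟩ := hs x
  refine ⟨A.tr k j x * V, ?_⟩
  rwa [st_trL θ h hj hk, F.cmp j k x _ _ hj hk, ← mul_assoc, Atl.tr_mul hj hk, one_mul]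

theorem st_of_sup {θ : A.Pot} {F : A.Rhs} {φ : X → ℝ} (h : Atl.Sup θ.u F.F φ) (x : X) :
    Atl.St θ F φ x := by
  obtain ⟨j, hj, h1⟩ := A.cov x
  obtain ⟨V, hV⟩ := h.2 j x hj
  exact ⟨j, V, hj, by linarith, hV⟩

end Vale.Agent.P272
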