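import Vale.Agent.P272.F.P.Defs

/-! P272 F/P/Sard (task). Helper names start with `sard_`. The easy case of the theorem of Sard.
Plan. `Φ y = (fderiv ℝ d y y - d y, -fderiv ℝ d y)` is `C^1` on the convex open ball (`ContDiffOn.fderiv_of_isOpen`, `ContDiffOn.clm_apply`); `ContDiffOn.dense_compl_image_of_dimH_lt_finrank` with `dimH (ball) ≤ dimH univ = finrank ℝ (E n)` (`Real.dimH_univ_eq_finrank`, `dimH_mono`), `finrank (ℝ × (E →L ℝ)) = 1 + finrank E` (`Module.finrank_prod`, `LinearMap.toContinuousLinearMap.finrank_eq`, `Subspace.dual_finrank_eq`); `Dense.mono`. -/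

open Metric Set Filter Topology Complex
open scoped ContDiff

noncomputable section

namespace Vale.Agent.P272

variable {n : ℕ} {X : Type} [TopologicalSpace X] {A : Atl n X}

theorem sard_ball {d : E n → ℝ} (hd : ContDiffOn ℝ ∞ d (ball 0 2)) :
    Dense {c : ℝ × (E n →L[ℝ] ℝ) | ∀ y ∈ ball (0 : E n) 2,
      d y + (c.1 + c.2 y) = 0 → fderiv ℝ d y + c.2 ≠ 0} := by
  have h1 : ContDiffOn ℝ 1 (fderiv ℝ d) (ball 0 2) :=
    hd.fderiv_of_isOpen isOpen_ball (WithTop.coe_le_coe.2 (le_top (a := 1 + 1)))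
  have h2 : ContDiffOn ℝ 1 (fun y => (fderiv ℝ d y y - d y, -fderiv ℝ d y)) (ball (0 : E n) 2) :=
    ((h1.clm_apply contDiffOn_id).sub (hd.of_le (by exact_mod_cast le_top))).prodMk h1.neg
  have h3 : Module.finrank ℝ (ℝ × (E n →L[ℝ] ℝ)) = Module.finrank ℝ (E n) + 1 := by
    rw [Module.finrank_prod, Module.finrank_self, add_comm,
      ← (LinearMap.toContinuousLinearMap (𝕜 := ℝ) (E := E n) (F' := ℝ)).finrank_eq]
    exact congrArg (· + 1) Subspace.dual_finrank_eq
  refine (h2.dense_compl_image_of_dimH_lt_finrank (convex_ball _ _) subset_rfl ?_).mono ?_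
  · refine (dimH_mono (subset_univ _)).trans_lt ?_
    rw [Real.dimH_univ_eq_finrank, h3]
    exact_mod_cast Nat.lt_succ_self _
  · intro c hc y hy h0 h4
    refine hc ⟨y, hy, Prod.ext ?_ (neg_eq_of_add_eq_zero_right h4)⟩
    have h5 : fderiv ℝ d y y + c.2 y = 0 := congrArg (fun T : E n →L[ℝ] ℝ => T y) h4
    change fderiv ℝ d y y - d y = c.1
    linarith

end Vale.Agent.P272
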