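import Vale.Agent.P272.F.P.Open
import Vale.Agent.P272.F.P.Ext
import Vale.Agent.P272.F.P.Sard

/-! P272 F/P/Step (task). Helper names start with `step_`. Transversality by small perturbation.
Plan. `step_one`: family `G c = p + (c.1 χ + c.2 W)` (`exists_W`, `smF_pert`), `G 0 = p`; `hy_fam`, `near_fam`, `rg_cpt` (family `fam_sub`) hold near `c = 0`; pick `c` there in the dense set of `sard_ball` for `d = loc (p - q) j` (`Dense.inter_nhds_nonempty`); for `‖e j x‖ ≤ 1`, near `e j x` `loc (G c - q) j y = d y + (c.1 + c.2 y)`. `exists_trans`: induction on finsets `S` of charts (`Finset.induction_on`), `K = ⋃ k ∈ S, {x | A.In k 1 x}` compact (image of `closedBall 0 1` by `symm`, `A.tgt`), the statement for all `e > 0`; `A.cov`. -/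

open Metric Set Filter Topology Complex
open scoped ContDiff

noncomputable section

namespace Vale.Agent.P272

variable {n : ℕ} {X : Type} [TopologicalSpace X] {A : Atl n X}

theorem step_cpt (j : Fin A.N) : IsCompact {x | A.In j 1 x} := by
  have hsub : closedBall (0 : E n) 1 ⊆ (A.e j).target :=
    (closedBall_subset_closedBall (by norm_num)).trans (A.tgt j)
  have hc : IsCompact ((A.e j).symm '' closedBall (0 : E n) 1) :=
    (isCompact_closedBall 0 1).image_of_continuousOn ((A.e j).continuousOn_symm.mono hsub)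
  have he : {x | A.In j 1 x} = (A.e j).symm '' closedBall (0 : E n) 1 := by
    ext x
    constructor
    · rintro ⟨h1, h2⟩
      exact ⟨A.e j x, by simpa using h2, (A.e j).left_inv h1⟩
    · rintro ⟨y, hy, rfl⟩
      refine ⟨(A.e j).map_target (hsub hy), ?_⟩
      rw [(A.e j).right_inv (hsub hy)]
      simpa using hy
  rw [he]
  exact hc

theorem step_one [T2Space X] [CompactSpace X] {θ : A.Pot} {F : A.Rhs} {p q : X → ℝ} (hp : A.Sm p)
    (hq : A.Sm q) (h : Atl.Hy θ F p q) {K : Set X} (hK : IsCompact K)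
    (hr : ∀ x ∈ K, A.Rg (fun x => p x - q x) x) (j : Fin A.N) {e : ℝ} (he : 0 < e) :
    ∃ p', A.Sm p' ∧ Atl.Hy θ F p' q ∧ (∀ x, p' x ≤ p x + e) ∧
      ∀ x, x ∈ K ∨ A.In j 1 x → A.Rg (fun x => p' x - q x) x := by
  obtain ⟨χ, W, hχ, hW, hχW⟩ := exists_W (A := A) j
  set G : ℝ × (E n →L[ℝ] ℝ) → X → ℝ := fun c x => p x + (c.1 * χ x + c.2 (W x)) with hG
  have hS : A.SmF G := smF_pert hp hχ hW
  have hG0 : G 0 = p := by
    funext x
    simp [hG]
  have h1 : ∀ᶠ c in 𝓝 (0 : ℝ × (E n →L[ℝ] ℝ)), Atl.Hy θ F (G c) q :=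
    hy_fam hS hq (by rw [hG0]; exact h)
  have h2 : ∀ᶠ c in 𝓝 (0 : ℝ × (E n →L[ℝ] ℝ)), ∀ x, G c x ≤ G 0 x + e := near_fam hS 0 he
  have h3 : ∀ᶠ c in 𝓝 (0 : ℝ × (E n →L[ℝ] ℝ)), ∀ x ∈ K, A.Rg (fun x => G c x - q x) x :=
    rg_cpt (G := fun c x => G c x - q x) (fam_sub hS hq) hK (by rw [hG0]; exact hr)
  have hsub : ball (0 : E n) 2 ⊆ (A.e j).target :=
    (ball_subset_closedBall.trans (closedBall_subset_closedBall (by norm_num))).trans (A.tgt j)
  set d : E n → ℝ := A.loc (fun x => p x - q x) j with hd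
  have hdsm : ContDiffOn ℝ ∞ d (ball 0 2) := ((hp j).sub (hq j)).mono hsub
  obtain ⟨c, hc1, hc2⟩ := (sard_ball hdsm).inter_nhds_nonempty (h1.and (h2.and h3))
  obtain ⟨k1, k2, k3⟩ := hc2
  refine ⟨G c, fam_sm hS c, k1, fun x => by simpa [hG0] using k2 x, ?_⟩
  rintro x (hx | ⟨hx, hx1⟩)
  · exact k3 x hx
  · intro h0
    have hyb : A.e j x ∈ ball (0 : E n) 2 := by
      rw [mem_ball_zero_iff]
      linarith
    have hev : A.loc (fun x => G c x - q x) j =ᶠ[𝓝 (A.e j x)] fun y => d y + (c.1 + c.2 y) := by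
      filter_upwards [isOpen_ball.mem_nhds hyb] with y hy
      have hys := (A.e j).map_target (hsub hy)
      have hyr := (A.e j).right_inv (hsub hy)
      obtain ⟨a1, a2⟩ := hχW _ hys (by rw [hyr]; exact mem_ball_zero_iff.1 hy)
      simp only [Atl.loc, hG, hd, a1, a2, hyr]
      ring
    have hdd : DifferentiableAt ℝ d (A.e j x) :=
      (hdsm.contDiffAt (isOpen_ball.mem_nhds hyb)).differentiableAt (by simp)
    have hf : HasFDerivAt (fun y => d y + (c.1 + c.2 y)) (fderiv ℝ d (A.e j x) + c.2) (A.e j x) :=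
      hdd.hasFDerivAt.add (c.2.hasFDerivAt.const_add c.1)
    refine ⟨j, hx, by linarith, ?_⟩
    rw [hev.fderiv_eq, hf.fderiv]
    apply hc1 _ hyb
    have := hev.eq_of_nhds
    rw [pv_loc _ hx] at this
    rw [← this]
    exact h0

theorem exists_trans [T2Space X] [CompactSpace X] {θ : A.Pot} {F : A.Rhs} {p q : X → ℝ}
    (hp : A.Sm p) (hq : A.Sm q) (h : Atl.Hy θ F p q) {e : ℝ} (he : 0 < e) :
    ∃ p', A.Sm p' ∧ Atl.Hy θ F p' q ∧ (∀ x, p' x ≤ p x + e) ∧
      ∀ x, A.Rg (fun x => p' x - q x) x := by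
  classical
  have key : ∀ S : Finset (Fin A.N), ∀ e : ℝ, 0 < e → ∃ p', A.Sm p' ∧ Atl.Hy θ F p' q ∧
      (∀ x, p' x ≤ p x + e) ∧ ∀ x ∈ ⋃ k ∈ S, {x | A.In k 1 x}, A.Rg (fun x => p' x - q x) x := by
    intro S
    induction S using Finset.induction_on with
    | empty =>
      intro e he
      exact ⟨p, hp, h, fun x => by linarith, fun x hx => by simp at hx⟩
    | insert j S _ ih =>
      intro e he
      obtain ⟨p1, a1, a2, a3, a4⟩ := ih (e / 2) (by linarith)
      have hK : IsCompact (⋃ k ∈ S, {x | A.In k 1 x}) :=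
        S.isCompact_biUnion fun k _ => step_cpt k
      obtain ⟨p2, b1, b2, b3, b4⟩ := step_one a1 hq a2 hK a4 j (e := e / 2) (by linarith)
      refine ⟨p2, b1, b2, fun x => by linarith [a3 x, b3 x], fun x hx => b4 x ?_⟩
      rw [Finset.set_biUnion_insert] at hx
      exact hx.symm
  obtain ⟨p', a1, a2, a3, a4⟩ := key Finset.univ e he
  refine ⟨p', a1, a2, a3, fun x => a4 x ?_⟩
  obtain ⟨j, hj1, hj2⟩ := A.cov x
  exact mem_iUnion₂.2 ⟨j, Finset.mem_univ j, hj1, hj2.le⟩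

end Vale.Agent.P272
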