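import Vale.Agent.P272.F.P.Marg
import Vale.Agent.P272.F.P.Lse
import Vale.Agent.P272.F.P.Step
import Vale.Agent.P272.F.P.St

/-! P272 F/P/Min (task). Helper names start with `min_`. The smooth minimum of two strict functions.
Plan. `min_loc`: `a` from `lse_spec`, `p x - q x = h (log (1 - a) - log a)`. If `a ≤ 1/2` then `|lse - q| ≤ h` (`log (1/2) ≥ -1`), if `1 - a ≤ 1/2` then `|lse - p| ≤ h`. Case `p x₀ < q x₀`: nearby `p - q ≤ -κ`, so `1 - a ≤ exp (-κ / h) ≤ h / κ ≤ min s (1/2)`, `marg_one` for `(p, q)` with weight `1 - a` (drop the square). Case `q x₀ < p x₀` symmetric. Case equal: `s = min s₁ s₂ (1/2)`; `a ≤ s`: `marg_one` for `(q, p)`; `1 - a ≤ s`: for `(p, q)`; else `marg_two` with `t = a (1 - a) / (4 h) ≥ s ^ 2 / (4 h) ≥ T`, `R = |p x₀| + |q x₀| + 3`. `exists_min`: `exists_trans`, `IsCompact.eventually_forall_of_forall_eventually`, `sup_of_st`, `lse ≤ min` as `log a ≤ 0`. -/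

open Metric Set Filter Topology Complex
open scoped ContDiff

noncomputable section

namespace Vale.Agent.P272

variable {n : ℕ} {X : Type} [TopologicalSpace X] {A : Atl n X}

theorem min_log {h a : ℝ} (h0 : 0 < h) (ha : 1 / 2 ≤ a) (ha1 : a < 1) :
    |h * Real.log a| ≤ h := by
  have ha0 : 0 < a := by linarith
  have h1 : Real.log a ≤ 0 := Real.log_nonpos ha0.le ha1.le
  have h2 : 1 - a⁻¹ ≤ Real.log a := Real.one_sub_inv_le_log_of_pos ha0
  have h3 : a⁻¹ ≤ 2 := by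
    rw [inv_le_comm₀ ha0 (by norm_num)]
    linarith
  rw [abs_le]
  constructor <;> nlinarith

theorem min_small {h κ b : ℝ} (h0 : 0 < h) (hb : 0 < b) (h1 : h * Real.log b ≤ -κ) :
    κ * b ≤ h := by
  have h2 : 1 - b⁻¹ ≤ Real.log b := Real.one_sub_inv_le_log_of_pos hb
  have h3 : h * (1 - b⁻¹) ≤ -κ := le_trans (mul_le_mul_of_nonneg_left h2 h0.le) h1
  have h4 := mul_le_mul_of_nonneg_right h3 hb.le
  have h5 : h * (1 - b⁻¹) * b = h * b - h := by field_simp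
  have h6 : 0 < h * b := mul_pos h0 hb
  rw [h5] at h4
  linarith

theorem min_one {θ : A.Pot} {F : A.Rhs} {p q : X → ℝ} (hp : A.Sm p) (hq : A.Sm q) {x₀ : X}
    (h : Atl.St θ F p x₀) : ∃ s : ℝ, 0 < s ∧ s ≤ 1 / 2 ∧ ∀ᶠ x in 𝓝 x₀,
      ∀ (m : X → ℝ) (h a : ℝ), A.Sm m → 0 < h → h ≤ s → a < 1 → 1 - a ≤ s →
      m x = p x + h * Real.log a → (∀ j b, x ∈ (A.e j).source →
        levi (A.loc m j) (A.e j x) b ≤
          a * levi (A.loc p j) (A.e j x) b + (1 - a) * levi (A.loc q j) (A.e j x) b) →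
      Atl.St θ F m x := by
  obtain ⟨s, hs, H⟩ := marg_one hp hq h
  refine ⟨min s (1 / 2), lt_min hs (by norm_num), min_le_right _ _, ?_⟩
  filter_upwards [H] with x hx m h a hm h0 hh ha1 ha hmx hl
  have h1 := min_le_left s (1 / 2)
  have h2 := min_le_right s (1 / 2)
  refine hx m (1 - a) hm ?_ (by linarith) (by linarith) ?_
  · rw [hmx, add_sub_cancel_left]
    exact (min_log h0 (by linarith) ha1).trans (by linarith)
  · intro j b hj
    rw [sub_sub_cancel]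
    exact hl j b hj

theorem min_drop {l u v a h w : ℝ} (h0 : 0 < h) (ha : 0 < a) (ha1 : a < 1)
    (hl : l ≤ a * u + (1 - a) * v - a * (1 - a) / (4 * h) * w ^ 2) :
    l ≤ a * u + (1 - a) * v := by
  have h1 : 0 < 1 - a := by linarith
  have h2 : 0 ≤ a * (1 - a) / (4 * h) * w ^ 2 := by positivity
  linarith

theorem min_fst (x₀ : X) {c : ℝ} (hc : 0 < c) : ∀ᶠ z : ℝ × X in 𝓝 (0, x₀), z.1 < c :=
  (continuous_fst.tendsto ((0 : ℝ), x₀)).eventually (gt_mem_nhds hc)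

theorem min_snd {x₀ : X} {P : X → Prop} (h : ∀ᶠ x in 𝓝 x₀, P x) :
    ∀ᶠ z : ℝ × X in 𝓝 (0, x₀), P z.2 :=
  (continuous_snd.tendsto ((0 : ℝ), x₀)).eventually h

theorem min_abs {p : X → ℝ} (hp : A.Sm p) (x₀ : X) : ∀ᶠ x in 𝓝 x₀, |p x| < |p x₀| + 1 :=
  ((pv_cont hp).abs.tendsto x₀).eventually (gt_mem_nhds (lt_add_one _))

theorem min_loc (hn : 1 ≤ n) {θ : A.Pot} {F : A.Rhs} {p q : X → ℝ} (hp : A.Sm p) (hq : A.Sm q)
    (h : Atl.Hy θ F p q) {x₀ : X} (hr : A.Rg (fun x => p x - q x) x₀) :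
    ∀ᶠ z : ℝ × X in 𝓝 (0, x₀), 0 < z.1 → Atl.St θ F (lse z.1 p q) z.2 := by
  have hd : A.Sm (fun x => p x - q x) := fun j => (hp j).sub (hq j)
  rcases lt_trichotomy (p x₀) (q x₀) with hlt | heq | hlt
  · obtain ⟨s, hs, -, H⟩ := min_one hp hq ((h x₀).1 hlt.le)
    have hκ : 0 < (q x₀ - p x₀) / 2 := by linarith
    have hev : ∀ᶠ x in 𝓝 x₀, p x - q x < -((q x₀ - p x₀) / 2) :=
      ((pv_cont hd).tendsto x₀).eventually (gt_mem_nhds (by linarith))
    filter_upwards [min_snd H, min_snd hev, min_fst x₀ hs, min_fst x₀ (mul_pos hκ hs)]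
      with z h1 h2 h3 h4 h0
    obtain ⟨a, ha0, ha1, e1, e2, hl⟩ := lse_spec hp hq h0 z.2
    have h5 : z.1 * Real.log a ≤ 0 :=
      mul_nonpos_of_nonneg_of_nonpos h0.le (Real.log_nonpos ha0.le ha1.le)
    have h6 : (q x₀ - p x₀) / 2 * (1 - a) ≤ z.1 := min_small h0 (by linarith) (by linarith)
    have h7 : 1 - a ≤ s := le_of_mul_le_mul_left (h6.trans h4.le) hκ
    exact h1 _ z.1 a (lse_sm hp hq _) h0 h3.le ha1 h7 e1
      fun j b hj => min_drop h0 ha0 ha1 (hl j b hj)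
  · obtain ⟨s₁, hs₁, hs₁', H₁⟩ := min_one hp hq ((h x₀).1 heq.le)
    obtain ⟨s₂, hs₂, -, H₂⟩ := min_one hq hp ((h x₀).2 heq.ge)
    obtain ⟨j, hj, h4, hf⟩ := hr (sub_eq_zero.2 heq)
    obtain ⟨T, H₃⟩ := marg_two hn θ F hp hq hd hj h4 hf (|p x₀| + |q x₀| + 2)
    have hT : 0 < 4 * (|T| + 1) := by positivity
    filter_upwards [min_snd H₁, min_snd H₂, min_snd H₃, min_snd (min_abs hp x₀),
      min_snd (min_abs hq x₀), min_fst x₀ hs₁, min_fst x₀ hs₂,
      min_fst x₀ (div_pos (mul_pos hs₁ hs₂) hT)] with z h1 h2 h3 b1 b2 c1 c2 c3 h0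
    obtain ⟨a, ha0, ha1, e1, e2, hl⟩ := lse_spec hp hq h0 z.2
    by_cases d1 : 1 - a ≤ s₁
    · exact h1 _ z.1 a (lse_sm hp hq _) h0 c1.le ha1 d1 e1
        fun j b hj => min_drop h0 ha0 ha1 (hl j b hj)
    by_cases d2 : a ≤ s₂
    · refine h2 _ z.1 (1 - a) (lse_sm hp hq _) h0 c2.le (by linarith) (by linarith) e2 ?_
      intro j b hj
      have h5 := min_drop h0 ha0 ha1 (hl j b hj)
      rw [sub_sub_cancel]
      linarith
    refine h3 _ a (a * (1 - a) / (4 * z.1)) (lse_sm hp hq _) ?_ ha0.le ha1.le ?_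
      fun b hj => hl j b hj
    · have g1 := abs_nonneg (p x₀)
      have g2 := abs_nonneg (q x₀)
      by_cases d3 : 1 / 2 ≤ a
      · have h5 := min_log h0 d3 ha1
        rw [e1]
        refine (abs_add_le _ _).trans ?_
        linarith
      · have h5 := min_log (a := 1 - a) h0 (by linarith) (by linarith)
        rw [e2]
        refine (abs_add_le _ _).trans ?_
        linarith
    · rw [le_div_iff₀ (by linarith)]
      rw [lt_div_iff₀ hT] at c3
      have g1 : s₁ * s₂ ≤ (1 - a) * a :=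
        mul_le_mul (by linarith) (by linarith) hs₂.le (by linarith)
      have g2 : T * (4 * z.1) ≤ |T| * (4 * z.1) :=
        mul_le_mul_of_nonneg_right (le_abs_self T) (by linarith)
      nlinarith
  · obtain ⟨s, hs, -, H⟩ := min_one hq hp ((h x₀).2 hlt.le)
    have hκ : 0 < (p x₀ - q x₀) / 2 := by linarith
    have hev : ∀ᶠ x in 𝓝 x₀, (p x₀ - q x₀) / 2 < p x - q x :=
      ((pv_cont hd).tendsto x₀).eventually (lt_mem_nhds (by linarith))
    filter_upwards [min_snd H, min_snd hev, min_fst x₀ hs, min_fst x₀ (mul_pos hκ hs)]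
      with z h1 h2 h3 h4 h0
    obtain ⟨a, ha0, ha1, e1, e2, hl⟩ := lse_spec hp hq h0 z.2
    have h5 : z.1 * Real.log (1 - a) ≤ 0 :=
      mul_nonpos_of_nonneg_of_nonpos h0.le (Real.log_nonpos (by linarith) (by linarith))
    have h6 : (p x₀ - q x₀) / 2 * a ≤ z.1 := min_small h0 ha0 (by linarith)
    have h7 : a ≤ s := le_of_mul_le_mul_left (h6.trans h4.le) hκ
    refine h1 _ z.1 (1 - a) (lse_sm hp hq _) h0 h3.le (by linarith) (by linarith) e2 ?_
    intro j b hj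
    have h8 := min_drop h0 ha0 ha1 (hl j b hj)
    rw [sub_sub_cancel]
    linarith

theorem exists_min [T2Space X] [CompactSpace X] (hn : 1 ≤ n) {θ : A.Pot} {F : A.Rhs}
    {p q : X → ℝ} (hp : A.Sm p) (hq : A.Sm q) (h : Atl.Hy θ F p q) {e : ℝ} (he : 0 < e) :
    ∃ m, Atl.Sup θ.u F.F m ∧ ∀ x, m x ≤ p x + e ∧ m x ≤ q x := by
  obtain ⟨p', hp', hy, hle, hr⟩ := exists_trans hp hq h he
  have H : ∀ᶠ t : ℝ in 𝓝 0, ∀ x ∈ (univ : Set X), 0 < t → Atl.St θ F (lse t p' q) x :=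
    isCompact_univ.eventually_forall_of_forall_eventually
      (P := fun (t : ℝ) (x : X) => 0 < t → Atl.St θ F (lse t p' q) x)
      fun x _ => min_loc hn hp' hq hy (hr x)
  have H2 : ∀ᶠ t : ℝ in 𝓝[>] 0, 0 < t := self_mem_nhdsWithin
  obtain ⟨t, ht, ht0⟩ := ((H.filter_mono nhdsWithin_le_nhds).and H2).exists
  refine ⟨lse t p' q, sup_of_st (lse_sm hp' hq t) fun x => ht x (mem_univ x) ht0, fun x => ?_⟩
  obtain ⟨a, ha0, ha1, e1, e2, -⟩ := lse_spec hp' hq ht0 x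
  have h5 : t * Real.log a ≤ 0 :=
    mul_nonpos_of_nonneg_of_nonpos ht0.le (Real.log_nonpos ha0.le ha1.le)
  have h6 : t * Real.log (1 - a) ≤ 0 :=
    mul_nonpos_of_nonneg_of_nonpos ht0.le (Real.log_nonpos (by linarith) (by linarith))
  have h7 := hle x
  constructor <;> linarith

end Vale.Agent.P272
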