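import Vale.Agent.P272.F.P.Fam

/-! P272 F/P/Open (task). Helper names start with `open_`. The conditions are open in the family.
Plan. `st_fam`: keep `j`, `V`; `pv_trL_add` (`fam_sm`, `pv_at`, `pv_pot_at`), `pv_trL_cont`, `fam_trL`, `fam_cont`, `pv_lsc` with a third of the margin, all composed with `(c, x) ↦ (c, e j x)` or `(e j x, G c x)`. `rg_fam`: if `G c x ≠ 0` by `fam_cont`, else the same chart and `fam_d1`. `hy_fam`, `rg_cpt`, `near_fam`: `IsCompact.eventually_forall_of_forall_eventually`; for `hy_fam` at `x₀`: if `G c x₀ ≤ q x₀` use `st_fam`, else `q < G` nearby; the same for `q` (`st_fam` with `fam_const`). -/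

open Metric Set Filter Topology Complex
open scoped ContDiff

noncomputable section

namespace Vale.Agent.P272

variable {n : ℕ} {X : Type} [TopologicalSpace X] {A : Atl n X}

variable {P : Type} [NormedAddCommGroup P] [NormedSpace ℝ P] {G : P → X → ℝ}

theorem open_ch {j : Fin A.N} (c : P) {x : X} (hx : x ∈ (A.e j).source) :
    ContinuousAt (fun z : P × X => A.e j z.2) (c, x) :=
  ContinuousAt.comp (g := A.e j) (f := fun z : P × X => z.2) ((A.e j).continuousAt hx)
    continuousAt_snd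

theorem open_in {j : Fin A.N} (c : P) {x : X} (hx : x ∈ (A.e j).source) (h4 : ‖A.e j x‖ < 4) :
    ∀ᶠ z : P × X in 𝓝 (c, x), z.2 ∈ (A.e j).source ∧ ‖A.e j z.2‖ < 4 :=
  (continuousAt_snd.eventually (p := fun y => y ∈ (A.e j).source)
    ((A.e j).open_source.mem_nhds hx)).and
    ((open_ch c hx).norm.eventually_lt continuousAt_const h4)

theorem st_fam {θ : A.Pot} {F : A.Rhs} (h : A.SmF G) {c : P} {x : X} (hs : Atl.St θ F (G c) x) :
    ∀ᶠ z : P × X in 𝓝 (c, x), Atl.St θ F (G z.1) z.2 := by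
  obtain ⟨j, V, hx, h4, hlt⟩ := hs
  have two : (2 : WithTop ℕ∞) ≤ ∞ := WithTop.coe_le_coe.2 (le_top (a := (2 : ℕ∞)))
  have add : ∀ (c' : P) (y : X), y ∈ (A.e j).source →
      trL (fun w => θ.u j w + A.loc (G c') j w) (A.e j y) V =
        trL (θ.u j) (A.e j y) V + trL (A.loc (G c') j) (A.e j y) V := fun c' y hy =>
    pv_trL_add ((pv_pot_at θ hy).of_le two) ((pv_at (fam_sm h c') hy).of_le two) V
  rw [add c x hx] at hlt
  obtain ⟨m, hm1, hm2⟩ := exists_between hlt
  have h1 : ContinuousAt (fun z : P × X => trL (θ.u j) (A.e j z.2) V) (c, x) :=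
    ContinuousAt.comp (g := fun w => trL (θ.u j) w V) (f := fun z : P × X => A.e j z.2)
      (pv_trL_cont (pv_pot_at θ hx) V) (open_ch c hx)
  have h2 : ContinuousAt (fun z : P × X => trL (A.loc (G z.1) j) (A.e j z.2) V) (c, x) :=
    ContinuousAt.comp (g := fun z : P × E n => trL (A.loc (G z.1) j) z.2 V)
      (f := fun z : P × X => (z.1, A.e j z.2))
      (fam_trL h j c ((A.e j).map_source hx) V) (continuousAt_fst.prodMk (open_ch c hx))
  have h3 : ContinuousAt (fun z : P × X => (A.e j z.2, G z.1 z.2)) (c, x) :=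
    (open_ch c hx).prodMk (fam_cont h).continuousAt
  filter_upwards [open_in c hx h4, (h1.add h2).eventually_lt continuousAt_const hm1,
    h3.eventually (pv_lsc F j h4 (G c x) V (half_pos (sub_pos.2 hm2)))] with z k1 k2 k3
  refine ⟨j, V, k1.1, k1.2, ?_⟩
  rw [add z.1 z.2 k1.1]
  have k2' : trL (θ.u j) (A.e j z.2) V + trL (A.loc (G z.1) j) (A.e j z.2) V < m := k2
  have k3' : F.F j (A.e j x) (G c x) V ≤ F.F j (A.e j z.2) (G z.1 z.2) V +
    (F.F j (A.e j x) (G c x) V - m) / 2 := k3
  linarith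

theorem rg_fam (h : A.SmF G) {c : P} {x : X} (hs : A.Rg (G c) x) :
    ∀ᶠ z : P × X in 𝓝 (c, x), A.Rg (G z.1) z.2 := by
  by_cases h0 : G c x = 0
  · obtain ⟨j, hx, h4, hne⟩ := hs h0
    have h2 : ContinuousAt (fun z : P × X => fderiv ℝ (A.loc (G z.1) j) (A.e j z.2)) (c, x) :=
      ContinuousAt.comp (g := fun z : P × E n => fderiv ℝ (A.loc (G z.1) j) z.2)
        (f := fun z : P × X => (z.1, A.e j z.2))
        (fam_d1 h j c ((A.e j).map_source hx)) (continuousAt_fst.prodMk (open_ch c hx))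
    filter_upwards [open_in c hx h4, h2.eventually_ne hne] with z k1 k2 _
    exact ⟨j, k1.1, k1.2, k2⟩
  · filter_upwards [(fam_cont h).continuousAt.eventually_ne (x := (c, x)) h0] with z k1 k2
    exact absurd k2 k1

theorem hy_fam [CompactSpace X] {θ : A.Pot} {F : A.Rhs} (h : A.SmF G) {q : X → ℝ} (hq : A.Sm q)
    {c : P} (hs : Atl.Hy θ F (G c) q) : ∀ᶠ c' in 𝓝 c, Atl.Hy θ F (G c') q := by
  have hq' : A.SmF fun _ : P => q := fam_const hq
  have key : ∀ x ∈ (univ : Set X), ∀ᶠ z : P × X in 𝓝 (c, x),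
      (G z.1 z.2 ≤ q z.2 → Atl.St θ F (G z.1) z.2) ∧ (q z.2 ≤ G z.1 z.2 → Atl.St θ F q z.2) := by
    intro x _
    refine Eventually.and ?_ ?_
    · by_cases h0 : G c x ≤ q x
      · exact (st_fam h ((hs x).1 h0)).mono fun z hz _ => hz
      · exact (((fam_cont hq').continuousAt (x := (c, x))).eventually_lt
          (fam_cont h).continuousAt (not_le.1 h0)).mono fun z hz k => absurd k (not_le.2 hz)
    · by_cases h0 : q x ≤ G c x
      · exact (st_fam hq' (c := c) ((hs x).2 h0)).mono fun z hz _ => hz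
      · exact (((fam_cont h).continuousAt (x := (c, x))).eventually_lt
          (fam_cont hq').continuousAt (not_le.1 h0)).mono fun z hz k => absurd k (not_le.2 hz)
  exact (isCompact_univ.eventually_forall_of_forall_eventually
    (P := fun c' x => (G c' x ≤ q x → Atl.St θ F (G c') x) ∧ (q x ≤ G c' x → Atl.St θ F q x))
    key).mono fun c' hc x => hc x (mem_univ x)

theorem rg_cpt (h : A.SmF G) {c : P} {K : Set X} (hK : IsCompact K) (hs : ∀ x ∈ K, A.Rg (G c) x) :
    ∀ᶠ c' in 𝓝 c, ∀ x ∈ K, A.Rg (G c') x := by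
  exact hK.eventually_forall_of_forall_eventually (P := fun c' x => A.Rg (G c') x)
    fun x hx => rg_fam h (hs x hx)

theorem near_fam [CompactSpace X] (h : A.SmF G) (c : P) {e : ℝ} (he : 0 < e) :
    ∀ᶠ c' in 𝓝 c, ∀ x, G c' x ≤ G c x + e := by
  have h1 : Continuous fun z : P × X => G c z.2 + e :=
    ((pv_cont (fam_sm h c)).comp continuous_snd).add continuous_const
  exact (isCompact_univ.eventually_forall_of_forall_eventually
    (P := fun c' x => G c' x ≤ G c x + e) fun x _ =>
      (((fam_cont h).continuousAt (x := (c, x))).eventually_lt h1.continuousAt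
        (lt_add_of_pos_right _ he)).mono fun z hz => hz.le).mono fun c' hc x => hc x (mem_univ x)

end Vale.Agent.P272
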